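import Vale.Agent.P313.H463.MW.Defs

/-!
FROZEN STATEMENTS of the two modules which use Mathlib only.
-/

namespace Vale.Agent.P313.MW

open Finset

/-- MODULE S. If the approximations pass the test then the result of the stage is accurate. -/
def ModS : Prop :=
  ∀ (N n Q J D tau : ℕ) (cn : ℕ → ℕ → ℕ → ℕ → ℕ) (mm : ℕ → ℕ → ℕ → ℕ) (δ : ℚ),
    0 < N → 4 ≤ Q → 0 ≤ δ →
    (∀ i ≤ n, ∀ u < N, ∀ v < N, cn i i u v = if u = v then Q else 0) →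
    okC N n Q J tau cn mm →
    (∀ p < n, ∀ u < N, (∑ v ∈ range N, (mm p u v : ℚ)) / (Q : ℚ) ^ J ≤ 1 + 1 / (2 * (n : ℚ))) →
    ((n : ℚ) + 1) * N * ((tau : ℚ) + 1) / Q ≤ δ → 2 * δ ^ 2 ^ D ≤ 1 →
    ∀ u < N, ∀ v < N,
      |(nx N n Q J D cn mm u v : ℚ) / (Q : ℚ) ^ J -
        prq N (fun p a b => (mm p a b : ℚ) / (Q : ℚ) ^ J) 0 n u v| ≤
          2 * δ ^ 2 ^ D + 1 / (Q : ℚ) ^ J

/-- MODULE C. There is a pool of `2 s` hash functions such that for each automaton of a small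
family some subset of the pool gives good approximations of all partial products. -/
def ModC : Prop :=
  ∀ (ι : Type) (A : Finset ι) (T : ι → ℕ → ℕ → ℕ → ℕ) (N s Q R : ℕ) (ε : ℚ),
    (∀ a p u x, T a p u x ≤ N) → Q.Prime → 1 ≤ s → 0 < R → 0 < ε →
    (R : ℚ) * ((2 : ℚ) ^ s + 1) ^ 2 * ((N : ℚ) + 1) ^ 2 ≤ Q * ε ^ 2 →
    #A * 2 ^ (2 * s) < R ^ (s + 1) →
    ∃ al be : ℕ → ℕ, (∀ c, al c < Q ∧ be c < Q) ∧
      ∀ a ∈ A, ∃ C < 2 ^ (2 * s), ∀ i t, i + t ≤ 2 ^ s → ∀ u ≤ N,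
        ∑ v ∈ range (N + 1), |(cw Q (2 * s) al be (T a) C i t u v : ℚ) / Q -
          prq (N + 1) (one Q (T a)) i t u v| ≤ 2 ^ s * (((N : ℚ) + 1) * ε)

end Vale.Agent.P313.MW
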