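import Vale.Agent.P313.H463.MW.Stage
import Vale.Agent.P313.H463.MW.SStmt

/-!
FROZEN STATEMENTS of the modules K1, K2, K3.
-/

namespace Vale.Agent.P313.MW

open Finset

/-- MODULE K1 (one block): if the computed matrices are close to the true ones and `C` is good for
the automaton of the safe cells of the true matrices then `C` passes the test. -/
def ModK1 : Prop :=
  ∀ (π : Prm) (h : ℕ) (al be : ℕ → ℕ) (mm : ℕ → ℕ → ℕ → ℕ) (M : ℕ → ℕ → ℕ → ℚ) (C : ℕ),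
    π.Num h → Stoch π.N π.n M →
    (∀ p < π.n, ∀ u < π.N, ∀ v < π.N, |(mm p u v : ℚ) / (π.Q : ℚ) ^ π.J - M p u v| ≤ 1 / π.Q) →
    (∀ i t, i + t ≤ π.n → ∀ u ≤ π.N,
      ∑ v ∈ range (π.N + 1), |(cw π.Q (2 * π.s) al be (autc π.N π.Q M) C i t u v : ℚ) / π.Q -
        prq (π.N + 1) (one π.Q (autc π.N π.Q M)) i t u v| ≤ 2 / 2 ^ (8 * h)) →
    π.pass al be mm C

/-- MODULE K2: soundness of all stages. -/
def ModK2 : Prop :=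
  ∀ (π : Prm) (h : ℕ) (al be : ℕ → ℕ) (B0 : ℕ → ℕ → ℕ → ℕ) (M : ℕ → ℕ → ℕ → ℚ) (K : ℕ),
    π.Num h → K ≤ π.s → Stoch π.N (π.n ^ K) M →
    (∀ A < π.n ^ K, ∀ u < π.N, ∀ v < π.N,
      |(B0 A u v : ℚ) / (π.Q : ℚ) ^ π.J - M A u v| ≤ 1 / (π.Q : ℚ) ^ π.J) →
    ∀ k ≤ K, (∀ k' < k, ∀ A < π.n ^ (K - k' - 1),
      π.found al be (fun p u v => π.stg al be B0 k' (A * π.n + p) u v)) →
    ∀ A < π.n ^ (K - k), ∀ u < π.N, ∀ v < π.N,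
      |(π.stg al be B0 k A u v : ℚ) / (π.Q : ℚ) ^ π.J - prq π.N M (A * π.n ^ k) (π.n ^ k) u v| ≤
        2 * (4 * (π.n : ℚ)) ^ k * π.N / (π.Q : ℚ) ^ π.J

/-- MODULE K3: some pool passes all tests. -/
def ModK3 : Prop :=
  ∀ (π : Prm) (h : ℕ) (B0 : ℕ → ℕ → ℕ → ℕ) (M : ℕ → ℕ → ℕ → ℚ),
    π.Num h → Stoch π.N (π.n ^ π.s) M →
    (∀ A < π.n ^ π.s, ∀ u < π.N, ∀ v < π.N,
      |(B0 A u v : ℚ) / (π.Q : ℚ) ^ π.J - M A u v| ≤ 1 / (π.Q : ℚ) ^ π.J) →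
    ∃ al be : ℕ → ℕ, (∀ c, al c < π.Q ∧ be c < π.Q) ∧
      ∀ k < π.s, ∀ A < π.n ^ (π.s - k - 1),
        π.found al be (fun p u v => π.stg al be B0 k (A * π.n + p) u v)

end Vale.Agent.P313.MW
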