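import Vale.Agent.P313.H463.MW.Fold
import Vale.Agent.P313.H463.MW.KStmt

/-!
FROZEN STATEMENTS of the machine side: closed forms of the recursion (ModV), closure in `LF`
(ModL), true matrices from the input (ModT), parameters (ModN).
-/

namespace Vale.Agent.P313.MW

open Finset

/-- The base `X` is large. -/
structure Prm.Big (π : Prm) (X : ℕ) : Prop where
  Q2 : 2 ≤ π.Q
  N1 : 1 ≤ π.N
  J1 : 1 ≤ π.J
  QX : π.Q < X
  CX : 2 ^ (2 * π.s) ≤ X
  WX : π.W4 ≤ X
  WQ : π.W4 ≤ π.Q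
  FX : π.F < X

/-- MODULE V: the values of the recursion are the digits of the results of the stages; level `9` of
a stage finds the subset of the pool. -/
def ModV : Prop :=
  ∀ (π : Prm) (X : ℕ) (al be : ℕ → ℕ) (bs : ℕ → ℕ → ℕ) (B0 : ℕ → ℕ → ℕ → ℕ), π.Big X →
    (∀ A, ∀ u < π.N, ∀ v < π.N, ∀ e < X,
      bs A (pk X [0, 0, 0, 0, u, v, e, 0]) = B0 A u v / π.Q ^ e % π.Q) →
    (∀ A u v, B0 A u v < π.Q ^ (π.J + 1)) → ∀ k A : ℕ,
    (∀ u < π.N, ∀ v < π.N, ∀ e < X,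
      π.V X al be bs (k * π.LP) A (pk X [0, 0, 0, 0, u, v, e, 0]) =
        π.stg al be B0 k A u v / π.Q ^ e % π.Q) ∧
    (π.V X al be bs (k * π.LP + 9) A (pk X [3, 0, 0, 0, 0, 0, 0, 0]) ≠ 0 ↔
      π.found al be (fun p u v => π.stg al be B0 k (A * π.n + p) u v))

/-- The pool from a number. -/
def alz (Q z c : ℕ) : ℕ := z / Q ^ (2 * c) % Q
/-- The pool from a number. -/
def bez (Q z c : ℕ) : ℕ := z / Q ^ (2 * c + 1) % Q

/-- The parameters are computable. -/
structure PrmLF (π : List Bool → Prm) : Prop where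
  N : ∀ m, LF (fun x _ => (π x).N : Fn m)
  s : ∀ m, LF (fun x _ => (π x).s : Fn m)
  Q : ∀ m, LF (fun x _ => (π x).Q : Fn m)
  J : ∀ m, LF (fun x _ => (π x).J : Fn m)
  D : ∀ m, LF (fun x _ => (π x).D : Fn m)
  tau : ∀ m, LF (fun x _ => (π x).tau : Fn m)
  n : ∀ m, LF (fun x _ => (π x).n : Fn m)
  C : ∀ m, LF (fun x _ => 2 ^ (2 * (π x).s) : Fn m)
  D2 : ∀ m, LF (fun x _ => 2 ^ (π x).D : Fn m)
  Ma : ∀ m, LF (fun x _ => (π x).n ^ (π x).s : Fn m)

/-- MODULE L: the stack machine of the recursion is in `LF`. Arguments: pool `a 0`, budget `a 1`,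
level `a 2`, address `a 3`, argument `a 4`. -/
def ModL : Prop :=
  ∀ (π : List Bool → Prm) (X : List Bool → ℕ) (bs : List Bool → ℕ → ℕ → ℕ → ℕ), PrmLF π →
    (∀ m, LF (fun x _ => X x : Fn m)) → (∀ x, 0 < (π x).Q) →
    LF (fun x a => bs x (a 0) (a 1) (a 2) : Fn 3) →
    LF (fun x a => ((π x).rcn (X x) (alz (π x).Q (a 0)) (bez (π x).Q (a 0)) (bs x (a 1))).run
      ((π x).n ^ (π x).s) (X x ^ 8) (X x ^ 4) (a 2) (a 1) (a 3) (a 4) : Fn 5)

/-! ### The problem -/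

/-- Bit `i` of the input, zero beyond the end. -/
def bit (x : List Bool) (i : ℕ) : ℕ := if x.getD i false = true then 1 else 0

/-- The number with `l` bits which starts at position `i`, least significant bit first. -/
def num (x : List Bool) (i l : ℕ) : ℕ := ∑ k ∈ range l, bit x (i + k) * 2 ^ k

/-- The numerator of the entry `(u, v)` of matrix number `t`: the input starts with two indices of
`W` bits and a number of `g + 1` bits, then come the entries with `K + 1` bits. -/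
def entry (x : List Bool) (W K g t u v : ℕ) : ℕ :=
  num x (2 * W + (g + 1) + ((t * 2 ^ W + u) * 2 ^ W + v) * (K + 1)) (K + 1)

/-- The product of the first `t` matrices. -/
def prodM (x : List Bool) (W K g : ℕ) : ℕ → ℕ → ℕ → ℚ
  | 0, u, v => if u = v then 1 else 0
  | t + 1, u, v => ∑ s ∈ range (2 ^ W), prodM x W K g t u s * ((entry x W K g t s v : ℚ) / 2 ^ K)

/-- The first `2 ^ lam` matrices are substochastic. -/
def SubSt (x : List Bool) (lam W K g : ℕ) : Prop :=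
  ∀ t < 2 ^ lam, ∀ u < 2 ^ W, ∑ v ∈ range (2 ^ W), entry x W K g t u v ≤ 2 ^ K

/-- Numerators of the matrices with a sink (state `2 ^ W`), identity matrices from `2 ^ lam` on. -/
def numT (x : List Bool) (lam W K g t u v : ℕ) : ℕ :=
  if t < 2 ^ lam ∧ u < 2 ^ W then
    (if v < 2 ^ W then entry x W K g t u v
    else if v = 2 ^ W then 2 ^ K - ∑ v ∈ range (2 ^ W), entry x W K g t u v else 0)
  else if u = v then 2 ^ K else 0

/-- The true matrices. -/
def trueM (x : List Bool) (lam W K g t u v : ℕ) : ℚ := (numT x lam W K g t u v : ℚ) / 2 ^ K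

/-- The matrices at the bottom of the recursion. -/
def baseM (Q J : ℕ) (x : List Bool) (lam W K g t u v : ℕ) : ℕ :=
  numT x lam W K g t u v * Q ^ J / 2 ^ K

/-- MODULE T: the true matrices. -/
def ModT : Prop :=
  ∀ (x : List Bool) (lam W K g : ℕ),
    (∀ Q J A u v, 2 ≤ Q → baseM Q J x lam W K g A u v < Q ^ (J + 1)) ∧
    (∀ Q J A u v, 2 ≤ Q →
      |(baseM Q J x lam W K g A u v : ℚ) / (Q : ℚ) ^ J - trueM x lam W K g A u v| ≤
        1 / (Q : ℚ) ^ J) ∧
    (SubSt x lam W K g → ∀ m, Stoch (2 ^ W + 1) m (trueM x lam W K g)) ∧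
    (SubSt x lam W K g → ∀ m, 2 ^ lam ≤ m → ∀ u < 2 ^ W, ∀ v < 2 ^ W,
      prq (2 ^ W + 1) (trueM x lam W K g) 0 m u v = prodM x W K g (2 ^ lam) u v)

/-- The parameters as functions of `lam`, `W`, `g`: `s = sqrt (lam + g) + 1`, `h = W + s + 10`. -/
noncomputable def thePrm (lam W g : ℕ) : Prm where
  N := 2 ^ W + 1
  s := Nat.sqrt (lam + g) + 1
  Q := nxp (2 ^ (40 * (W + (Nat.sqrt (lam + g) + 1) + 10)))
  J := Nat.sqrt (lam + g) + 2
  D := Nat.log 2 (Nat.sqrt (lam + g) + 2) + 5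
  tau := nxp (2 ^ (40 * (W + (Nat.sqrt (lam + g) + 1) + 10))) /
    2 ^ (6 * (W + (Nat.sqrt (lam + g) + 1) + 10))

/-- The base of the fields. -/
def theX (lam W g : ℕ) : ℕ := 2 ^ (60 * (W + (Nat.sqrt (lam + g) + 1) + 10))

/-- The budget. -/
noncomputable def theM (lam W g : ℕ) : ℕ :=
  theX lam W g ^ (30 * ((thePrm lam W g).s * (thePrm lam W g).LP + 1))

/-- The space bound. -/
noncomputable def theS (lam W g : ℕ → ℕ) (n : ℕ) : ℝ :=
  Real.logb 2 (n + 2) + ((lam n : ℝ) + g n + Real.sqrt ((lam n : ℝ) + g n) * W n) *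
    Real.logb 2 ((lam n : ℝ) + g n + 2)

/-- MODULE N: numerical facts about the parameters. -/
def ModN : Prop :=
  (∀ lam W g : ℕ, (thePrm lam W g).Num (W + (Nat.sqrt (lam + g) + 1) + 10) ∧
    (thePrm lam W g).Big (theX lam W g) ∧ lam + g < (thePrm lam W g).s ^ 2 ∧
    -- the budget
    (thePrm lam W g).n ^ (thePrm lam W g).s *
      (theX lam W g ^ 8) ^ (3 * ((thePrm lam W g).s * (thePrm lam W g).LP) + 3) ≤ theM lam W g ∧
    RecD.tt (theX lam W g ^ 4) ((thePrm lam W g).s * (thePrm lam W g).LP) ≤ theM lam W g ∧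
    (thePrm lam W g).Q ^ (4 * (thePrm lam W g).s + 4) ≤ theM lam W g ∧
    (thePrm lam W g).s * (thePrm lam W g).LP < theX lam W g ^ 8 ∧
    -- the final error
    2 * (4 * ((thePrm lam W g).n : ℚ)) ^ (thePrm lam W g).s * (thePrm lam W g).N /
      ((thePrm lam W g).Q : ℚ) ^ (thePrm lam W g).J < 1 / 2 ^ (g + 1)) ∧
  -- the size of the budget
  (∀ (lam W g : ℕ → ℕ) (c : ℕ), (∀ n, lam n ≤ c * Nat.log 2 (n + 2)) →
    (∀ n, W n ≤ c * Nat.log 2 (n + 2)) → (∀ n, g n ≤ c * Nat.log 2 (n + 2)) →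
    ∃ c' : ℕ, ∀ n, (Nat.log 2 (n + theM (lam n) (W n) (g n) + 2) : ℝ) ≤ c' * theS lam W g n + c') ∧
  -- computability
  (∀ lam W g : ℕ → ℕ, LF (fun x _ => lam x.length : Fn 0) → LF (fun x _ => W x.length : Fn 0) →
    LF (fun x _ => g x.length : Fn 0) → ∀ c : ℕ, (∀ n, lam n ≤ c * Nat.log 2 (n + 2)) →
    (∀ n, W n ≤ c * Nat.log 2 (n + 2)) → (∀ n, g n ≤ c * Nat.log 2 (n + 2)) →
    PrmLF (fun x => thePrm (lam x.length) (W x.length) (g x.length)) ∧
    (∀ m, LF (fun x _ => theX (lam x.length) (W x.length) (g x.length) : Fn m)))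

end Vale.Agent.P313.MW
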