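import Vale.Agent.P313.H463.MW.ClD

/-!
Module V from the closed forms of the levels 0, ..., 9 and of the other levels.
-/

namespace Vale.Agent.P313.MW

open Finset

namespace Prm

variable {π : Prm} {X : ℕ} {al be : ℕ → ℕ} {bs : ℕ → ℕ → ℕ}

theorem Xe_lt (hB : π.Big X) {mm : ℕ → ℕ → ℕ → ℕ} (hmm : ∀ p u v, mm p u v < π.Q ^ (π.J + 1))
    (C w w' : ℕ) :
    Xe π.N π.n π.Q π.J (π.cnC al be mm C) mm w w' < π.Q ^ (π.J + 3) := by
  have hQ2 := hB.Q2
  have hQ0 := hB.Q0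
  have h1 : ∀ i j u v, π.Q ^ π.J * π.cnC al be mm C i j u v < π.Q ^ (π.J + 3) := by
    intro i j u v
    calc π.Q ^ π.J * π.cnC al be mm C i j u v ≤ π.Q ^ π.J * π.Q :=
          Nat.mul_le_mul_left _ (cnC_le _ _ _ _ _ _ _ _)
      _ = π.Q ^ (π.J + 1) := (pow_succ _ _).symm
      _ < π.Q ^ (π.J + 3) := Nat.pow_lt_pow_right (by omega) (by omega)
  have h2 : 0 < π.Q ^ (π.J + 3) := Nat.pow_pos hQ0
  have h3 : π.Q ^ (π.J + 1) < π.Q ^ (π.J + 3) := Nat.pow_lt_pow_right (by omega) (by omega)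
  unfold Xe Xd
  split_ifs
  · exact Bm_lt hB hmm
  · exact h1 _ _ _ _
  · exact h2
  · exact h1 _ _ _ _
  · exact h2
  · exact h3
  · exact h2

theorem Xe_bd (hB : π.Big X) {mm : ℕ → ℕ → ℕ → ℕ} (hmm : ∀ p u v, mm p u v < π.Q ^ (π.J + 1))
    (C w w' : ℕ) :
    π.W4 * Xe π.N π.n π.Q π.J (π.cnC al be mm C) mm w w' < π.Q ^ (π.J + 4) := by
  have h1 := Xe_lt (al := al) (be := be) hB hmm C w w'
  have hQ0 := hB.Q0
  calc π.W4 * Xe π.N π.n π.Q π.J (π.cnC al be mm C) mm w w'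
      ≤ π.Q * Xe π.N π.n π.Q π.J (π.cnC al be mm C) mm w w' := Nat.mul_le_mul_right _ hB.WQ
    _ < π.Q * π.Q ^ (π.J + 3) := Nat.mul_lt_mul_of_pos_left h1 hQ0
    _ = _ := by ring

end Prm

/-- The other half of a stage. -/
def ModV2 : Prop :=
  ∀ (π : Prm) (X : ℕ) (al be : ℕ → ℕ) (bs : ℕ → ℕ → ℕ) (Z : ℕ → ℕ → ℕ) (m0 A : ℕ), π.Big X →
    m0 % π.LP = 0 →
    (∀ w < π.W4, ∀ w' < π.W4, π.W4 * Z w w' < π.Q ^ (π.J + 4)) →
    (∀ w < π.W4, ∀ w' < π.W4, ∀ e < X, π.V X al be bs (m0 + 10) A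
      (pk X [0, 0, 0, 0, w, w', e, 0]) = Z w w' / π.Q ^ e % π.Q) →
    ∀ u < π.N, ∀ v < π.N, ∀ e < X,
      π.V X al be bs (m0 + π.LP) A (pk X [0, 0, 0, 0, u, v, e, 0]) =
        (sqr π.W4 Z π.D (cod π.n 0 0 0 u) (cod π.n 1 0 π.n v) -
          sqr π.W4 Z π.D (cod π.n 0 0 0 u) (cod π.n 1 1 π.n v)) /
          π.Q ^ (π.E - π.J) % π.Q ^ (π.J + 1) / π.Q ^ e % π.Q

theorem modV_of (h2 : ModV2) : ModV := by
  intro π X al be bs B0 hB hbs hB0 k
  have hmm : ∀ k A u v, π.stg al be B0 k A u v < π.Q ^ (π.J + 1) := by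
    intro k
    cases k with
    | zero => exact hB0
    | succ k =>
      intro A u v
      exact Nat.mod_lt _ (Nat.pow_pos hB.Q0)
  have main : ∀ k A, ∀ u < π.N, ∀ v < π.N, ∀ e < X,
      π.V X al be bs (k * π.LP) A (pk X [0, 0, 0, 0, u, v, e, 0]) =
        π.stg al be B0 k A u v / π.Q ^ e % π.Q := by
    intro k
    induction k with
    | zero =>
      intro A u hu v hv e he
      rw [Nat.zero_mul, Prm.V_zero, hbs A u hu v hv e he, Nat.mod_eq_of_lt (hB.lt8 (hB.dig _ _))]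
      rfl
    | succ k ih =>
      intro A u hu v hv e he
      have hm : (k * π.LP) % π.LP = 0 := Nat.mul_mod_left _ _
      rw [show (k + 1) * π.LP = k * π.LP + π.LP by ring]
      rw [h2 π X al be bs (Xe π.N π.n π.Q π.J (π.cnC al be
        (fun p u v => π.stg al be B0 k (A * π.n + p) u v)
        (π.chs al be (fun p u v => π.stg al be B0 k (A * π.n + p) u v)))
        (fun p u v => π.stg al be B0 k (A * π.n + p) u v)) (k * π.LP) A hB hm
        (fun w _ w' _ => Prm.Xe_bd hB (fun p u v => hmm k _ u v) _ w w')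
        (fun w hw w' hw' e he => Prm.val9 hB hm
          (fun p _ u hu v hv e he => ih (A * π.n + p) u hu v hv e he)
          (fun p u v => hmm k _ u v) hw hw' he) u hu v hv e he]
      rfl
  intro A
  refine ⟨main k A, ?_⟩
  exact Prm.val8f hB (Nat.mul_mod_left _ _)
    (fun p _ u hu v hv e he => main k (A * π.n + p) u hu v hv e he) (fun p u v => hmm k _ u v)

end Vale.Agent.P313.MW
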