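import Vale.Agent.P313.H463.MW.MStmt

/-!
Closed forms of the levels 0, ..., 4 of a stage.
-/

namespace Vale.Agent.P313.MW

open Finset

namespace Prm

variable {π : Prm} {X : ℕ} {al be : ℕ → ℕ} {bs : ℕ → ℕ → ℕ}

theorem Big.X1 (hB : π.Big X) : 1 < X := lt_of_le_of_lt hB.Q2 (by have := hB.QX; omega) |>.trans_le' (by omega)

theorem Big.X0 (hB : π.Big X) : 0 < X := by have := hB.X1; omega

theorem Big.Q0 (hB : π.Big X) : 0 < π.Q := by have := hB.Q2; omega

theorem Big.NX (hB : π.Big X) : π.N < X := by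
  have h1 := hB.WX
  have h2 := hB.N1
  unfold Prm.W4 at h1
  have h3 : π.N ≤ (π.n + 1) * π.N := Nat.le_mul_of_pos_left _ (by omega)
  omega

theorem Big.nX (hB : π.Big X) : π.n + 1 < X := by
  have h1 := hB.WX
  have h2 := hB.N1
  unfold Prm.W4 at h1
  have h3 : π.n + 1 ≤ (π.n + 1) * π.N := Nat.le_mul_of_pos_right _ hB.N1
  omega

theorem Big.JX (hB : π.Big X) : π.J + 4 < X := by
  have h1 := hB.FX
  unfold Prm.F at h1
  have h3 : π.J + 4 ≤ (π.J + 4) * 2 ^ π.D := Nat.le_mul_of_pos_right _ (Nat.two_pow_pos _)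
  omega

theorem n_pos : 0 < π.n := Nat.two_pow_pos _

theorem LP_pos : 0 < π.LP := by unfold Prm.LP; omega

theorem lvl {m0 l : ℕ} (hm : m0 % π.LP = 0) (hl : l < π.LP) : (m0 + l) % π.LP = l := by
  rw [Nat.add_mod, hm, zero_add, Nat.mod_mod, Nat.mod_eq_of_lt hl]

theorem outL_s {l kd u v e s : ℕ} (h2 : ¬ (l = 2 ∧ kd = 0)) (h3 : ¬ (l = 3 ∧ kd = 0))
    (h9 : l ≠ 9) (h11 : l ≠ 11 + 2 * π.D) : π.outL X l kd u v e s = s := by
  unfold Prm.outL
  rw [if_neg h2, if_neg h3, if_neg h9, if_neg h11]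

/-- Powers of `X`. -/
theorem Big.X8 (hB : π.Big X) {a k : ℕ} (h : a < X ^ k) (hk : k ≤ 8) : a < X ^ 8 :=
  lt_of_lt_of_le h (Nat.pow_le_pow_right hB.X0 hk)

theorem Big.lt8 (hB : π.Big X) {a : ℕ} (h : a < X) : a < X ^ 8 :=
  hB.X8 (k := 1) (by rwa [pow_one]) (by norm_num)

theorem Big.four (hB : π.Big X) : 4 ≤ X ^ 4 := by
  have h1 : 2 ^ 4 ≤ X ^ 4 := Nat.pow_le_pow_left hB.X1 4
  omega

theorem Big.dig (hB : π.Big X) (a e : ℕ) : a / π.Q ^ e % π.Q < X :=
  (Nat.mod_lt _ hB.Q0).trans hB.QX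

/-- A level which passes a value on. -/
theorem pass_fold {f : ℕ → ℕ → ℕ} {a : ℕ} (hB : π.Big X) (ha : a < X ^ 8)
    (hf : f 0 0 = a) (hs : ∀ q s, 1 ≤ q → f q s = s) :
    nfold (fun q s => f q s % X ^ 8) 0 (X ^ 4) = a :=
  one_fold (by have := hB.four; omega) hf ha (fun q hq => hs q a hq)

section stage

variable (hB : π.Big X) {m0 : ℕ} (hm : m0 % π.LP = 0) {A : ℕ} {mm : ℕ → ℕ → ℕ → ℕ}
  (h0 : ∀ p < π.n, ∀ u < π.N, ∀ v < π.N, ∀ e < X,
    π.V X al be bs m0 (A * π.n + p) (pk X [0, 0, 0, 0, u, v, e, 0]) = mm p u v / π.Q ^ e % π.Q)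

include hB hm h0

/-- The shift level. -/
theorem val0 {p u v e : ℕ} (hp : p < π.n) (hu : u < π.N) (hv : v < π.N) (he : e < X) :
    π.V X al be bs (m0 + 1) A (pk X [0, 0, p, 0, u, v, e, 0]) = mm p u v / π.Q ^ e % π.Q := by
  have hN := hB.NX
  have hn := hB.nX
  have hX := hB.X0
  rw [V_succ (l := 0) hX hm hX hX (by omega) hX (by omega) (by omega) he hX,
    outL_s (by omega) (by omega) (by omega) (by omega)]
  rw [pass_fold (a := mm p u v / π.Q ^ e % π.Q) hB (hB.lt8 (hB.dig _ _)),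
    Nat.mod_eq_of_lt (hB.lt8 (hB.dig _ _))]
  · show (if 0 = 0 then π.V X al be bs m0 (if 0 = 0 then A * π.n + p % π.n else A)
      (pk X [0, 0, 0, 0, u, v, e, 0]) else 0) = _
    rw [if_pos rfl, if_pos rfl, Nat.mod_eq_of_lt hp]
    exact h0 p hp u hu v hv e he
  · intro q s hq
    show (if q = 0 then _ else s) = s
    rw [if_neg (by omega)]

theorem val1b {p u v e : ℕ} (hp : p < π.n) (hu : u < π.N) (hv : v < π.N) (he : e < X) :
    π.V X al be bs (m0 + 2) A (pk X [1, 0, p, 0, u, v, e, 0]) = mm p u v / π.Q ^ e % π.Q := by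
  have hN := hB.NX
  have hn := hB.nX
  have hX := hB.X0
  have hX1 := hB.X1
  rw [V_succ (m := m0 + 1) (l := 1) hX (lvl hm (by unfold Prm.LP; omega)) hX1 hX (by omega) hX
    (by omega) (by omega) he hX, outL_s (by omega) (by omega) (by omega) (by omega)]
  rw [pass_fold (a := mm p u v / π.Q ^ e % π.Q) hB (hB.lt8 (hB.dig _ _)),
    Nat.mod_eq_of_lt (hB.lt8 (hB.dig _ _))]
  · show π.V X al be bs (m0 + 1) A (pk X [0, 0, p, 0, u, v, e, 0]) = _
    exact val0 hB hm h0 hp hu hv he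
  · intro q s hq
    show (if q = 0 then _ else s) = s
    rw [if_neg (by omega)]

theorem val2b {p u v e : ℕ} (hp : p < π.n) (hu : u < π.N) (hv : v < π.N) (he : e < X) :
    π.V X al be bs (m0 + 3) A (pk X [1, 0, p, 0, u, v, e, 0]) = mm p u v / π.Q ^ e % π.Q := by
  have hN := hB.NX
  have hn := hB.nX
  have hX := hB.X0
  have hX1 := hB.X1
  rw [V_succ (m := m0 + 2) (l := 2) hX (lvl hm (by unfold Prm.LP; omega)) hX1 hX (by omega) hX
    (by omega) (by omega) he hX, outL_s (by omega) (by omega) (by omega) (by omega)]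
  rw [pass_fold (a := mm p u v / π.Q ^ e % π.Q) hB (hB.lt8 (hB.dig _ _)),
    Nat.mod_eq_of_lt (hB.lt8 (hB.dig _ _))]
  · show π.V X al be bs (m0 + 2) A (pk X [1, 0, p, 0, u, v, e, 0]) = _
    exact val1b hB hm h0 hp hu hv he
  · intro q s hq
    show (if q = 0 then _ else s) = s
    rw [if_neg (by omega)]

theorem val3b {p u v e : ℕ} (hp : p < π.n) (hu : u < π.N) (hv : v < π.N) (he : e < X) :
    π.V X al be bs (m0 + 4) A (pk X [1, 0, p, 0, u, v, e, 0]) = mm p u v / π.Q ^ e % π.Q := by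
  have hN := hB.NX
  have hn := hB.nX
  have hX := hB.X0
  have hX1 := hB.X1
  rw [V_succ (m := m0 + 3) (l := 3) hX (lvl hm (by unfold Prm.LP; omega)) hX1 hX (by omega) hX
    (by omega) (by omega) he hX, outL_s (by omega) (by omega) (by omega) (by omega)]
  rw [pass_fold (a := mm p u v / π.Q ^ e % π.Q) hB (hB.lt8 (hB.dig _ _)),
    Nat.mod_eq_of_lt (hB.lt8 (hB.dig _ _))]
  · show π.V X al be bs (m0 + 3) A (pk X [1, 0, p, 0, u, v, e, 0]) = _
    exact val2b hB hm h0 hp hu hv he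
  · intro q s hq
    show (if q = 0 then _ else s) = s
    rw [if_neg (by omega)]

variable (hmm : ∀ p u v, mm p u v < π.Q ^ (π.J + 1))

include hmm

/-- The two leading digits. -/
theorem val1a {p u v : ℕ} (hp : p < π.n) (hu : u < π.N) (hv : v < π.N) :
    π.V X al be bs (m0 + 2) A (pk X [0, 0, p, 0, u, v, 0, 0]) = mm p u v / π.Q ^ (π.J - 1) := by
  have hN := hB.NX
  have hn := hB.nX
  have hX := hB.X0
  have hX1 := hB.X1
  have hQ0 := hB.Q0
  have hQX := hB.QX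
  have hJX := hB.JX
  have hJ1 := hB.J1
  have hlt : mm p u v / π.Q ^ (π.J - 1) < π.Q ^ 2 := by
    rw [Nat.div_lt_iff_lt_mul (Nat.pow_pos hQ0), ← pow_add]
    have := hmm p u v
    rwa [show 2 + (π.J - 1) = π.J + 1 by omega]
  have hdec : mm p u v / π.Q ^ π.J % π.Q * π.Q + mm p u v / π.Q ^ (π.J - 1) % π.Q =
      mm p u v / π.Q ^ (π.J - 1) := by
    have e1 : mm p u v / π.Q ^ π.J = mm p u v / π.Q ^ (π.J - 1) / π.Q := by
      rw [Nat.div_div_eq_div_mul, ← pow_succ, Nat.sub_add_cancel hJ1]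
    have e2 : mm p u v / π.Q ^ (π.J - 1) / π.Q < π.Q := by
      rw [Nat.div_lt_iff_lt_mul hQ0]
      rwa [pow_two] at hlt
    rw [e1, Nat.mod_eq_of_lt e2, mul_comm]
    exact Nat.div_add_mod _ _
  have hQ2X : π.Q ^ 2 ≤ X ^ 2 := Nat.pow_le_pow_left hQX.le 2
  rw [V_succ (m := m0 + 1) (l := 1) hX (lvl hm (by unfold Prm.LP; omega)) hX hX (by omega) hX
    (by omega) (by omega) hX hX, outL_s (by omega) (by omega) (by omega) (by omega)]
  rw [two_fold (a := mm p u v / π.Q ^ π.J % π.Q * π.Q) (b := mm p u v / π.Q ^ (π.J - 1)),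
    Nat.mod_eq_of_lt (hB.X8 (lt_of_lt_of_le hlt hQ2X) (by norm_num))]
  · have := hB.four; omega
  · show (if 0 = 0 then π.V X al be bs (m0 + 1) A (pk X [0, 0, p, 0, u, v, π.J, 0]) * π.Q
      else 0) = _
    rw [if_pos rfl, val0 hB hm h0 hp hu hv (by omega)]
  · refine hB.X8 (k := 2) ?_ (by norm_num)
    refine lt_of_le_of_lt (Nat.le_add_right _ (mm p u v / π.Q ^ (π.J - 1) % π.Q)) ?_
    rw [hdec]
    exact lt_of_lt_of_le hlt hQ2X
  · show mm p u v / π.Q ^ π.J % π.Q * π.Q +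
      π.V X al be bs (m0 + 1) A (pk X [0, 0, p, 0, u, v, π.J - 1, 0]) = _
    rw [val0 hB hm h0 hp hu hv (by omega), hdec]
  · exact hB.X8 (lt_of_lt_of_le hlt hQ2X) (by norm_num)
  · intro q hq
    show (if q = 0 then _ else if q = 1 then _ else _) = _
    rw [if_neg (by omega), if_neg (by omega)]

end stage

end Prm

end Vale.Agent.P313.MW
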