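import Vale.Agent.P313.H463.MW.ClA

/-!
Closed forms of the levels 2 and 3 of a stage: the automaton and the walks.
-/

namespace Vale.Agent.P313.MW

open Finset

/-- The cells of the automaton of a stage. -/
def cel (Q J : ℕ) (mm : ℕ → ℕ → ℕ → ℕ) (p u v : ℕ) : ℕ := mm p u v / Q ^ (J - 1)

theorem cum_zero (f : ℕ → ℕ) : cum f 0 = 0 := by simp [cum]
theorem cum_succ (f : ℕ → ℕ) (v : ℕ) : cum f (v + 1) = cum f v + f v := sum_range_succ _ _

theorem aut_le (N : ℕ) (f : ℕ → ℕ → ℕ → ℕ) (p u x : ℕ) : aut N f p u x ≤ N := by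
  unfold aut
  split_ifs
  · exact (card_filter_le _ _).trans (by rw [card_range])
  · exact le_rfl

/-- The number of cumulative sums which are at most `x`. -/
def kx (f : ℕ → ℕ) (x q : ℕ) : ℕ := #{v ∈ range q | cum f (v + 1) ≤ x}

theorem kx_zero (f : ℕ → ℕ) (x : ℕ) : kx f x 0 = 0 := by simp [kx]

theorem kx_succ (f : ℕ → ℕ) (x q : ℕ) :
    kx f x (q + 1) = kx f x q + if cum f (q + 1) ≤ x then 1 else 0 := by
  unfold kx
  rw [range_add_one, filter_insert]
  split_ifs with h
  · rw [card_insert_of_notMem (by simp)]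
  · simp

theorem kx_le (f : ℕ → ℕ) (x q : ℕ) : kx f x q ≤ q := by
  unfold kx
  exact (card_filter_le _ _).trans (by rw [card_range])

/-! ### Labels -/

theorem nfold_shift (f : ℕ → ℕ → ℕ) (x k : ℕ) :
    nfold f x (k + 1) = nfold (fun i y => f (i + 1) y) (f 0 x) k := by
  induction k with
  | zero => rfl
  | succ k ih =>
    show f (k + 1) (nfold f x (k + 1)) = _
    rw [ih]
    rfl

theorem labS_eq (Q : ℕ) (al be : ℕ → ℕ) (C t : ℕ) : ∀ c x,
    labS Q al be C t c c x = lab Q al be C t c x := by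
  intro c
  induction c with
  | zero => intro x; rfl
  | succ c ih =>
    intro x
    show nfold (fun i y => hst Q al be C t (c + 1 - 1 - i) y) x (c + 1) =
      lab Q al be C t c (hst Q al be C t c x)
    rw [nfold_shift, ← ih]
    unfold labS
    have e : (fun i y => hst Q al be C t (c + 1 - 1 - (i + 1)) y) =
        fun i y => hst Q al be C t (c - 1 - i) y := by
      funext i y
      congr 1
      omega
    rw [e]
    congr 1

theorem lab_lt {Q : ℕ} (al be : ℕ → ℕ) (C t : ℕ) : ∀ c x, x < Q → lab Q al be C t c x < Q := by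
  intro c
  induction c with
  | zero => intro x hx; exact hx
  | succ c ih =>
    intro x hx
    apply ih
    unfold hst
    split_ifs
    · exact Nat.mod_lt _ (by omega)
    · exact hx

/-! ### Packing of two numbers -/

theorem two_mod {B a b : ℕ} (ha : a < B) : (a + B * b) % B = a := RecD.dig_mod ha
theorem two_div {B a b : ℕ} (ha : a < B) : (a + B * b) / B = b := RecD.dig_div ha

theorem two_lt {X a b : ℕ} (ha : a < X ^ 4) (hb : b < X ^ 4) : a + X ^ 4 * b < X ^ 8 := by
  have h1 := RecD.dig_lt (n := 1) ha (by rwa [pow_one] : b < (X ^ 4) ^ 1)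
  rw [← pow_mul] at h1
  simpa using h1

namespace Prm

variable {π : Prm} {X : ℕ} {al be : ℕ → ℕ} {bs : ℕ → ℕ → ℕ}

section stage

variable (hB : π.Big X) {m0 : ℕ} (hm : m0 % π.LP = 0) {A : ℕ} {mm : ℕ → ℕ → ℕ → ℕ}
  (h0 : ∀ p < π.n, ∀ u < π.N, ∀ v < π.N, ∀ e < X,
    π.V X al be bs m0 (A * π.n + p) (pk X [0, 0, 0, 0, u, v, e, 0]) = mm p u v / π.Q ^ e % π.Q)
  (hmm : ∀ p u v, mm p u v < π.Q ^ (π.J + 1))

include hB hmm in
theorem cel_lt (p u v : ℕ) : cel π.Q π.J mm p u v < π.Q ^ 2 := by
  unfold cel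
  have hJ1 := hB.J1
  rw [Nat.div_lt_iff_lt_mul (Nat.pow_pos hB.Q0), ← pow_add]
  have := hmm p u v
  rwa [show 2 + (π.J - 1) = π.J + 1 by omega]

include hB hmm in
theorem cum_lt {p u v : ℕ} (hv : v ≤ π.N) : cum (cel π.Q π.J mm p u) v < X ^ 4 := by
  have h1 : cum (cel π.Q π.J mm p u) v ≤ π.N * X ^ 2 := by
    unfold cum
    calc ∑ w ∈ range v, cel π.Q π.J mm p u w ≤ ∑ w ∈ range v, X ^ 2 := by
          refine sum_le_sum fun w _ => ?_
          exact (cel_lt hB hmm p u w).le.trans (Nat.pow_le_pow_left hB.QX.le 2)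
      _ = v * X ^ 2 := by rw [sum_const, card_range, smul_eq_mul]
      _ ≤ _ := Nat.mul_le_mul_right _ hv
  refine lt_of_le_of_lt h1 ?_
  calc π.N * X ^ 2 < X * X ^ 2 := Nat.mul_lt_mul_of_pos_right hB.NX (Nat.pow_pos hB.X0)
    _ = X ^ 3 := by ring
    _ ≤ X ^ 4 := Nat.pow_le_pow_right hB.X0 (by norm_num)

include hB in
theorem lt4 {a : ℕ} (h : a < X) : a < X ^ 4 :=
  lt_of_lt_of_le h (Nat.le_self_pow (by norm_num) _)

include hB hm h0 hmm

/-- The automaton. -/
theorem val2a {p u x : ℕ} (hp : p < π.n) (hu : u ≤ π.N) (hx : x < X) :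
    π.V X al be bs (m0 + 3) A (pk X [0, 0, p, 0, u, 0, 0, x]) =
      aut π.N (cel π.Q π.J mm) p u x := by
  have hN := hB.NX
  have hn := hB.nX
  have hX := hB.X0
  have hX1 := hB.X1
  rw [V_succ (m := m0 + 2) (l := 2) hX (lvl hm (by unfold Prm.LP; omega)) hX hX (by omega) hX
    (by omega) hX hX hx]
  have hout : ∀ s, π.outL X 2 0 u 0 0 s = if u < π.N then s / X ^ 4 else π.N := fun s => rfl
  rw [hout]
  unfold aut
  by_cases hu' : u < π.N
  swap
  · rw [if_neg hu', if_neg hu', Nat.mod_eq_of_lt (hB.lt8 hN)]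
  rw [if_pos hu', if_pos hu']
  have key : nfold (fun q s => π.updL X 2 0 p 0 u 0 0 x q s
      (π.V X al be bs (m0 + 2) (if 2 = 0 then A * π.n + p % π.n else A)
        (π.qryL X al be 2 0 0 p 0 u 0 0 x q s)) % X ^ 8) 0 (X ^ 4) =
      cum (cel π.Q π.J mm p u) π.N + X ^ 4 * kx (cel π.Q π.J mm p u) x π.N := by
    have hpart : ∀ q ≤ π.N, nfold (fun q s => π.updL X 2 0 p 0 u 0 0 x q s
        (π.V X al be bs (m0 + 2) (if 2 = 0 then A * π.n + p % π.n else A)
          (π.qryL X al be 2 0 0 p 0 u 0 0 x q s)) % X ^ 8) 0 q =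
        cum (cel π.Q π.J mm p u) q + X ^ 4 * kx (cel π.Q π.J mm p u) x q := by
      intro q
      induction q with
      | zero => intro _; simp [nfold, cum_zero, kx_zero]
      | succ q ih =>
        intro hq
        show π.updL X 2 0 p 0 u 0 0 x q _ (π.V X al be bs (m0 + 2) A
          (pk X [0, 0, p, 0, u, q, 0, 0])) % X ^ 8 = _
        rw [ih (by omega), val1a hB hm h0 hmm hp hu' (by omega)]
        have h1 := cum_lt hB hmm (p := p) (u := u) (v := q) (by omega)
        have h2 := cum_lt hB hmm (p := p) (u := u) (v := q + 1) hq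
        have e : ∀ s r, π.updL X 2 0 p 0 u 0 0 x q s r = if q < π.N then
            s % X ^ 4 + r + X ^ 4 * (s / X ^ 4 + if s % X ^ 4 + r ≤ x then 1 else 0) else s :=
          fun s r => rfl
        rw [e, if_pos (by omega), two_mod h1, two_div h1, kx_succ, cum_succ]
        rw [cum_succ] at h2
        change (cum (cel π.Q π.J mm p u) q + cel π.Q π.J mm p u q + X ^ 4 *
          (kx (cel π.Q π.J mm p u) x q +
            if cum (cel π.Q π.J mm p u) q + cel π.Q π.J mm p u q ≤ x then 1 else 0)) % X ^ 8 = _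
        rw [Nat.mod_eq_of_lt]
        apply two_lt h2
        have h3 := kx_le (cel π.Q π.J mm p u) x q
        have h4 := lt4 hB hN
        split_ifs <;> omega
    refine nfold_stable (hpart π.N le_rfl) (lt4 hB hN).le (fun q hq _ => ?_)
    have e : ∀ s r, π.updL X 2 0 p 0 u 0 0 x q s r = if q < π.N then
        s % X ^ 4 + r + X ^ 4 * (s / X ^ 4 + if s % X ^ 4 + r ≤ x then 1 else 0) else s :=
      fun s r => rfl
    rw [e, if_neg (by omega), Nat.mod_eq_of_lt]
    refine two_lt (cum_lt hB hmm le_rfl) ?_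
    exact lt_of_le_of_lt (kx_le _ _ _) (lt4 hB hN)
  rw [key, two_div (cum_lt hB hmm le_rfl)]
  rw [Nat.mod_eq_of_lt (hB.lt8 (lt_of_le_of_lt (kx_le _ _ _) hN))]
  rfl

/-- The number of seeds below `x` with the right end. -/
theorem val3a {C i j u v : ℕ} (hC : C < X) (hi : i ≤ π.n) (hj : j ≤ π.n) (hu : u ≤ π.N)
    (hv : v < X) :
    π.V X al be bs (m0 + 4) A (pk X [0, C, i, j, u, v, 0, 0]) =
      cw π.Q (2 * π.s) al be (aut π.N (cel π.Q π.J mm)) C i (j - i) u v := by
  have hN := hB.NX
  have hn := hB.nX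
  have hX := hB.X0
  have hX1 := hB.X1
  have hQX := hB.QX
  rw [V_succ (m := m0 + 3) (l := 3) hX (lvl hm (by unfold Prm.LP; omega)) hX hC (by omega)
    (by omega) (by omega) hv hX hX]
  have hout : ∀ s, π.outL X 3 0 u v 0 s = s / X ^ 4 := fun s => rfl
  rw [hout]
  set T := aut π.N (cel π.Q π.J mm) with hT
  set f : ℕ → ℕ → ℕ := fun q s => π.updL X 3 0 i j u v 0 0 q s
      (π.V X al be bs (m0 + 3) (if 3 = 0 then A * π.n + i % π.n else A)
        (π.qryL X al be 3 0 C i j u v 0 0 q s)) % X ^ 8 with hf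
  -- the number of good seeds below `x`
  let cc : ℕ → ℕ := fun x => #{x' ∈ range x |
    wlk T (fun t => lab π.Q al be C t (2 * π.s) x') i u (j - i) = v}
  have hcc0 : cc 0 = 0 := by simp [cc]
  have hccs : ∀ x, cc (x + 1) = cc x +
      if wlk T (fun t => lab π.Q al be C t (2 * π.s) x) i u (j - i) = v then 1 else 0 := by
    intro x
    simp only [cc]
    rw [range_add_one, filter_insert]
    split_ifs with h
    · rw [card_insert_of_notMem (by simp)]
    · simp
  have hccle : ∀ x, cc x ≤ x := fun x => (card_filter_le _ _).trans (by rw [card_range])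
  have hwN : ∀ lb t, wlk T lb i u t ≤ π.N := by
    intro lb t
    cases t with
    | zero => exact hu
    | succ t => exact aut_le _ _ _ _ _
  -- one step
  have hstep : ∀ x < π.Q, ∀ t < X, ∀ lo c, lo ≤ π.N → c ≤ X →
      (t ≠ 0 → lo = wlk T (fun t => lab π.Q al be C t (2 * π.s) x) i u (min t (j - i))) →
      f (X * x + t) (lo + X ^ 4 * c) =
        wlk T (fun t => lab π.Q al be C t (2 * π.s) x) i u (min (t + 1) (j - i)) + X ^ 4 *
          (c + if t = X - 1 ∧ wlk T (fun t => lab π.Q al be C t (2 * π.s) x) i u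
            (min (t + 1) (j - i)) = v then 1 else 0) := by
    intro x hx t ht lo c hlo hc hw
    have q1 : (X * x + t) % X = t := by rw [Nat.mul_add_mod, Nat.mod_eq_of_lt ht]
    have q2 : (X * x + t) / X = x := by
      rw [Nat.mul_add_div hX, Nat.div_eq_of_lt ht, add_zero]
    have hlo4 : lo < X ^ 4 := lt4 hB (by omega)
    set cur := if t = 0 then u else lo with hcur
    have hcurle : cur ≤ π.N := by rw [hcur]; split_ifs <;> omega
    have hcurw : cur = wlk T (fun t => lab π.Q al be C t (2 * π.s) x) i u (min t (j - i)) := by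
      rw [hcur]
      split_ifs with h
      · subst h; rw [Nat.zero_min]; rfl
      · exact hw h
    have hnew : (if i + t < j then π.V X al be bs (m0 + 3) A (pk X [0, 0, i + t, 0, cur, 0, 0,
        labS π.Q al be C t (2 * π.s) (2 * π.s) x]) else cur) =
        wlk T (fun t => lab π.Q al be C t (2 * π.s) x) i u (min (t + 1) (j - i)) := by
      by_cases h : i + t < j
      · rw [if_pos h, labS_eq, val2a hB hm h0 hmm (by omega) hcurle
          ((lab_lt al be C t _ _ hx).trans hQX), hcurw, min_eq_left (by omega : t ≤ j - i),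
          min_eq_left (by omega : t + 1 ≤ j - i)]
        rfl
      · rw [if_neg h, hcurw, min_eq_right (by omega : j - i ≤ t),
          min_eq_right (by omega : j - i ≤ t + 1)]
    have e1 : f (X * x + t) (lo + X ^ 4 * c) =
        (if (X * x + t) / X < π.Q then
          (if i + (X * x + t) % X < j then π.V X al be bs (m0 + 3) A
            (pk X [0, 0, i + (X * x + t) % X, 0,
              if (X * x + t) % X = 0 then u else (lo + X ^ 4 * c) % X ^ 4, 0, 0,
              labS π.Q al be C ((X * x + t) % X) (2 * π.s) (2 * π.s) ((X * x + t) / X)])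
            else if (X * x + t) % X = 0 then u else (lo + X ^ 4 * c) % X ^ 4) +
          X ^ 4 * ((lo + X ^ 4 * c) / X ^ 4 + if (X * x + t) % X = X - 1 ∧
            (if i + (X * x + t) % X < j then π.V X al be bs (m0 + 3) A
            (pk X [0, 0, i + (X * x + t) % X, 0,
              if (X * x + t) % X = 0 then u else (lo + X ^ 4 * c) % X ^ 4, 0, 0,
              labS π.Q al be C ((X * x + t) % X) (2 * π.s) (2 * π.s) ((X * x + t) / X)])
            else if (X * x + t) % X = 0 then u else (lo + X ^ 4 * c) % X ^ 4) = v then 1 else 0)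
        else (lo + X ^ 4 * c)) % X ^ 8 := rfl
    rw [e1, q1, q2, if_pos hx, two_mod hlo4, two_div hlo4, ← hcur, hnew]
    apply Nat.mod_eq_of_lt
    apply two_lt
    · exact lt4 hB (lt_of_le_of_lt (hwN _ _) hN)
    · have h4 := hB.X1
      have h5 : X + 1 < X ^ 4 := by
        calc X + 1 < X * 2 := by omega
          _ ≤ X * X := Nat.mul_le_mul_left _ h4
          _ = X ^ 2 := by ring
          _ ≤ X ^ 4 := Nat.pow_le_pow_right hX (by norm_num)
      split_ifs <;> omega
  -- one block
  have hblock : ∀ x < π.Q, ∀ lo, lo ≤ π.N → nfold f 0 (X * x) = lo + X ^ 4 * cc x →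
      ∀ t < X, nfold f 0 (X * x + (t + 1)) =
        wlk T (fun t => lab π.Q al be C t (2 * π.s) x) i u (min (t + 1) (j - i)) + X ^ 4 *
          (cc x + if t = X - 1 ∧ wlk T (fun t => lab π.Q al be C t (2 * π.s) x) i u
            (min (t + 1) (j - i)) = v then 1 else 0) := by
    intro x hx lo hlo hst t
    induction t with
    | zero =>
      intro ht
      show f (X * x) (nfold f 0 (X * x)) = _
      rw [hst]
      exact hstep x hx 0 ht lo (cc x) hlo ((hccle x).trans (by omega)) (fun h => absurd rfl h)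
    | succ t ih =>
      intro ht
      show f (X * x + (t + 1)) (nfold f 0 (X * x + (t + 1))) = _
      rw [ih (by omega), if_neg (show ¬ (t = X - 1 ∧ _) by rintro ⟨h, _⟩; omega), add_zero]
      exact hstep x hx (t + 1) ht _ (cc x) (hwN _ _) ((hccle x).trans (by omega)) (fun _ => rfl)
  have hmain : ∀ x ≤ π.Q, ∃ lo ≤ π.N, nfold f 0 (X * x) = lo + X ^ 4 * cc x := by
    intro x
    induction x with
    | zero => intro _; exact ⟨0, Nat.zero_le _, by simp [nfold, hcc0]⟩
    | succ x ih =>
      intro hx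
      obtain ⟨lo, hlo, hst⟩ := ih (by omega)
      have h1 := hblock x (by omega) lo hlo hst (X - 1) (by omega)
      rw [show X * x + (X - 1 + 1) = X * (x + 1) by rw [Nat.sub_add_cancel (by omega)]; ring,
        show X - 1 + 1 = X by omega, min_eq_right (by omega : j - i ≤ X)] at h1
      refine ⟨wlk T (fun t => lab π.Q al be C t (2 * π.s) x) i u (j - i), hwN _ _, ?_⟩
      rw [h1, hccs]
      simp
  obtain ⟨lo, hlo, hst⟩ := hmain π.Q le_rfl
  have hfin : nfold f 0 (X ^ 4) = lo + X ^ 4 * cc π.Q := by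
    refine nfold_stable hst ?_ (fun q hq _ => ?_)
    · calc X * π.Q ≤ X * X := Nat.mul_le_mul_left _ hQX.le
        _ = X ^ 2 := by ring
        _ ≤ X ^ 4 := Nat.pow_le_pow_right hX (by norm_num)
    · have e1 : f q (lo + X ^ 4 * cc π.Q) = (if q / X < π.Q then _ else lo + X ^ 4 * cc π.Q) %
        X ^ 8 := rfl
      rw [e1, if_neg (by rw [not_lt, Nat.le_div_iff_mul_le hX, mul_comm]; exact hq)]
      apply Nat.mod_eq_of_lt
      exact two_lt (lt4 hB (by omega)) (lt4 hB (lt_of_le_of_lt (hccle _) hQX))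
  rw [hfin, two_div (lt4 hB (by omega))]
  exact Nat.mod_eq_of_lt (hB.lt8 (lt_of_le_of_lt (hccle _) hQX))

end stage

end Prm

end Vale.Agent.P313.MW
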