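import Vale.Agent.P313.H463.MW.ClB

/-!
Closed forms of the levels 4, 5 and 6 of a stage.
-/

namespace Vale.Agent.P313.MW

open Finset

theorem cw_le (Q r : ℕ) (al be : ℕ → ℕ) (T : ℕ → ℕ → ℕ → ℕ) (C i t u v : ℕ) :
    cw Q r al be T C i t u v ≤ Q :=
  (card_filter_le _ _).trans (by rw [card_range])

namespace Prm

variable {π : Prm} {X : ℕ} {al be : ℕ → ℕ} {bs : ℕ → ℕ → ℕ}

theorem cnC_le (al be : ℕ → ℕ) (mm : ℕ → ℕ → ℕ → ℕ) (C i j u v : ℕ) :
    π.cnC al be mm C i j u v ≤ π.Q := cw_le _ _ _ _ _ _ _ _ _ _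

theorem Big.NQ (hB : π.Big X) : π.N ≤ π.Q := by
  have h1 := hB.WQ
  unfold Prm.W4 at h1
  have h3 : π.N ≤ (π.n + 1) * π.N := Nat.le_mul_of_pos_left _ (by omega)
  omega

section stage

variable (hB : π.Big X) {m0 : ℕ} (hm : m0 % π.LP = 0) {A : ℕ} {mm : ℕ → ℕ → ℕ → ℕ}
  (h0 : ∀ p < π.n, ∀ u < π.N, ∀ v < π.N, ∀ e < X,
    π.V X al be bs m0 (A * π.n + p) (pk X [0, 0, 0, 0, u, v, e, 0]) = mm p u v / π.Q ^ e % π.Q)
  (hmm : ∀ p u v, mm p u v < π.Q ^ (π.J + 1))

include hB hmm in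
theorem Bm_lt {C i j u v : ℕ} :
    Bm π.N (π.cnC al be mm C) mm i j u v < π.Q ^ (π.J + 3) := by
  unfold Bm
  have hN := hB.NQ
  have hN1 := hB.N1
  have hQ0 := hB.Q0
  calc ∑ s ∈ range π.N, π.cnC al be mm C i (j - 1) u s * mm (j - 1) s v
      < ∑ s ∈ range π.N, π.Q * π.Q ^ (π.J + 1) := by
        refine sum_lt_sum_of_nonempty (by simp; omega) (fun s _ => ?_)
        calc π.cnC al be mm C i (j - 1) u s * mm (j - 1) s v ≤ π.Q * mm (j - 1) s v :=
              Nat.mul_le_mul_right _ (cnC_le _ _ _ _ _ _ _ _)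
          _ < π.Q * π.Q ^ (π.J + 1) := Nat.mul_lt_mul_of_pos_left (hmm _ _ _) hQ0
    _ = π.N * (π.Q * π.Q ^ (π.J + 1)) := by rw [sum_const, card_range, smul_eq_mul]
    _ ≤ π.Q * (π.Q * π.Q ^ (π.J + 1)) := Nat.mul_le_mul_right _ hN
    _ = π.Q ^ (π.J + 3) := by ring

include hB in
theorem Q2X : π.Q * π.Q < X ^ 2 := by
  have := hB.QX
  rw [pow_two]
  exact Nat.mul_lt_mul'' this this

include hB hm h0 hmm

/-- Level 4: a product. -/
theorem val4a {C i j u v e w : ℕ} (hC : C < X) (hi : i ≤ π.n) (hj1 : 1 ≤ j) (hj : j ≤ π.n)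
    (hu : u < π.N) (hv : v < π.N) (he : e < X) (hw : w < π.N) :
    π.V X al be bs (m0 + 5) A (pk X [0, C, i, j, u, v, e, w]) =
      π.cnC al be mm C i (j - 1) u w * (mm (j - 1) w v / π.Q ^ e % π.Q) := by
  have hN := hB.NX
  have hn := hB.nX
  have hX := hB.X0
  have hX1 := hB.X1
  have hQX := hB.QX
  rw [V_succ (m := m0 + 4) (l := 4) hX (lvl hm (by unfold Prm.LP; omega)) hX hC (by omega)
    (by omega) (by omega) (by omega) he (by omega),
    outL_s (by omega) (by omega) (by omega) (by omega)]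
  have hb : π.cnC al be mm C i (j - 1) u w * (mm (j - 1) w v / π.Q ^ e % π.Q) < X ^ 8 := by
    refine hB.X8 (k := 2) ?_ (by norm_num)
    refine lt_of_le_of_lt (Nat.mul_le_mul (cnC_le _ _ _ _ _ _ _ _) (Nat.mod_lt _ hB.Q0).le)
      (Q2X hB)
  rw [two_fold (a := π.cnC al be mm C i (j - 1) u w)
    (b := π.cnC al be mm C i (j - 1) u w * (mm (j - 1) w v / π.Q ^ e % π.Q)),
    Nat.mod_eq_of_lt hb]
  · have := hB.four; omega
  · show π.V X al be bs (m0 + 4) A (pk X [0, C, i, j - 1, u, w, 0, 0]) = _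
    exact val3a hB hm h0 hmm hC hi (by omega) hu.le (by omega)
  · exact hB.lt8 (lt_of_le_of_lt (cnC_le _ _ _ _ _ _ _ _) hQX)
  · show π.cnC al be mm C i (j - 1) u w *
      π.V X al be bs (m0 + 4) A (pk X [1, 0, j - 1, 0, w, v, e, 0]) = _
    rw [val3b hB hm h0 (by omega) hw hv he]
  · exact hb
  · intro q hq
    show (if q = 0 then _ else if q = 1 then _ else _) = _
    rw [if_neg (by omega), if_neg (by omega)]

theorem val4b {C i j u v : ℕ} (hC : C < X) (hi : i ≤ π.n) (hj : j ≤ π.n)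
    (hu : u < π.N) (hv : v < π.N) :
    π.V X al be bs (m0 + 5) A (pk X [1, C, i, j, u, v, 0, 0]) = π.cnC al be mm C i j u v := by
  have hN := hB.NX
  have hn := hB.nX
  have hX := hB.X0
  have hX1 := hB.X1
  have hQX := hB.QX
  rw [V_succ (m := m0 + 4) (l := 4) hX (lvl hm (by unfold Prm.LP; omega)) hX1 hC (by omega)
    (by omega) (by omega) (by omega) hX hX, outL_s (by omega) (by omega) (by omega) (by omega)]
  have hb : π.cnC al be mm C i j u v < X ^ 8 :=
    hB.lt8 (lt_of_le_of_lt (cnC_le _ _ _ _ _ _ _ _) hQX)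
  rw [pass_fold (a := π.cnC al be mm C i j u v) hB hb, Nat.mod_eq_of_lt hb]
  · show π.V X al be bs (m0 + 4) A (pk X [0, C, i, j, u, v, 0, 0]) = _
    exact val3a hB hm h0 hmm hC hi hj hu.le (by omega)
  · intro q s hq
    show (if q = 0 then _ else s) = s
    rw [if_neg (by omega)]

theorem val5b {C i j u v e : ℕ} (hC : C < X) (hi : i ≤ π.n) (hj : j ≤ π.n)
    (hu : u < π.N) (hv : v < π.N) (he : e < X) :
    π.V X al be bs (m0 + 6) A (pk X [1, C, i, j, u, v, e, 0]) = π.cnC al be mm C i j u v := by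
  have hN := hB.NX
  have hn := hB.nX
  have hX := hB.X0
  have hX1 := hB.X1
  have hQX := hB.QX
  rw [V_succ (m := m0 + 5) (l := 5) hX (lvl hm (by unfold Prm.LP; omega)) hX1 hC (by omega)
    (by omega) (by omega) (by omega) he hX, outL_s (by omega) (by omega) (by omega) (by omega)]
  have hb : π.cnC al be mm C i j u v < X ^ 8 :=
    hB.lt8 (lt_of_le_of_lt (cnC_le _ _ _ _ _ _ _ _) hQX)
  rw [pass_fold (a := π.cnC al be mm C i j u v) hB hb, Nat.mod_eq_of_lt hb]
  · show π.V X al be bs (m0 + 5) A (pk X [1, C, i, j, u, v, 0, 0]) = _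
    exact val4b hB hm h0 hmm hC hi hj hu hv
  · intro q s hq
    show (if q = 0 then _ else s) = s
    rw [if_neg (by omega)]

/-- Level 5: digits of a matrix product. -/
theorem val5a {C i j u v e : ℕ} (hC : C < X) (hi : i ≤ π.n) (hj1 : 1 ≤ j) (hj : j ≤ π.n)
    (hu : u < π.N) (hv : v < π.N) (he : e < X) :
    π.V X al be bs (m0 + 6) A (pk X [0, C, i, j, u, v, e, 0]) =
      Bm π.N (π.cnC al be mm C) mm i j u v / π.Q ^ e % π.Q := by
  have hN := hB.NX
  have hn := hB.nX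
  have hX := hB.X0
  have hX1 := hB.X1
  have hQX := hB.QX
  have hQ0 := hB.Q0
  have hQ2 := hB.Q2
  rw [V_succ (m := m0 + 5) (l := 5) hX (lvl hm (by unfold Prm.LP; omega)) hX hC (by omega)
    (by omega) (by omega) (by omega) he hX, outL_s (by omega) (by omega) (by omega) (by omega)]
  set g : ℕ → ℕ := fun q => if q % X < π.N ∧ q / X ≤ e then
    π.cnC al be mm C i (j - 1) u (q % X) * (mm (j - 1) (q % X) v / π.Q ^ (q / X) % π.Q) else 0
    with hg
  have e1 : nfold (fun q s => π.updL X 5 0 i j u v e 0 q s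
      (π.V X al be bs (m0 + 5) (if 5 = 0 then A * π.n + i % π.n else A)
        (π.qryL X al be 5 0 C i j u v e 0 q s)) % X ^ 8) 0 (X ^ 4) =
      nfold (fun q z => bst X π.Q e q (z + g q) % X ^ 8) 0 (X * X ^ 3) := by
    rw [show X * X ^ 3 = X ^ 4 by ring]
    refine nfold_congr fun q _ => ?_
    generalize nfold (fun q z => bst X π.Q e q (z + g q) % X ^ 8) 0 q = z
    show bst X π.Q e q (z + if q % X < π.N ∧ q / X ≤ e then
      π.V X al be bs (m0 + 5) A (pk X [0, C, i, j, u, v, q / X, q % X]) else 0) % X ^ 8 = _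
    congr 2
    rw [hg]
    by_cases h : q % X < π.N ∧ q / X ≤ e
    · simp only [if_pos h]
      rw [val4a hB hm h0 hmm hC hi hj1 hj hu hv (by omega) h.1]
    · simp only [if_neg h]
  rw [e1, conv_digit (G0 := π.Q * π.Q) hX hQ2]
  rotate_left
  · have : 1 ≤ X * π.Q := Nat.mul_pos hX hQ0
    calc π.Q = 1 * π.Q := (one_mul _).symm
      _ ≤ (X * π.Q) * π.Q := Nat.mul_le_mul_right _ this
      _ = _ := by ring
  · calc 2 * (X * (π.Q * π.Q)) < X * (X * X ^ 2) := by
          refine lt_of_le_of_lt (Nat.mul_le_mul_right _ (show 2 ≤ X by omega)) ?_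
          exact Nat.mul_lt_mul_of_pos_left (Nat.mul_lt_mul_of_pos_left (Q2X hB) hX) hX
      _ = X ^ 4 := by ring
      _ ≤ X ^ 8 := Nat.pow_le_pow_right hX (by norm_num)
  · exact he.trans_le (Nat.le_self_pow (by norm_num) _)
  · intro q
    simp only [hg]
    split_ifs
    · exact Nat.mul_le_mul (cnC_le _ _ _ _ _ _ _ _) (Nat.mod_lt _ hQ0).le
    · exact Nat.zero_le _
  · intro q hq
    simp only [hg]
    rw [if_neg (by omega)]
  have e2 : (∑ i' ∈ range (e + 1), (∑ y ∈ range X, g (X * i' + y)) * π.Q ^ i') =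
      ∑ s ∈ range π.N, π.cnC al be mm C i (j - 1) u s * (mm (j - 1) s v % π.Q ^ (e + 1)) := by
    have e3 : ∀ i' ∈ range (e + 1), (∑ y ∈ range X, g (X * i' + y)) * π.Q ^ i' =
        ∑ s ∈ range π.N, π.cnC al be mm C i (j - 1) u s *
          (mm (j - 1) s v / π.Q ^ i' % π.Q * π.Q ^ i') := by
      intro i' hi'
      rw [mem_range] at hi'
      rw [sum_mul]
      rw [← sum_subset (range_mono hN.le : range π.N ⊆ range X)]
      · refine sum_congr rfl fun y hy => ?_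
        rw [mem_range] at hy
        simp only [hg]
        rw [Nat.mul_add_mod, Nat.mod_eq_of_lt (by omega), Nat.mul_add_div hX,
          Nat.div_eq_of_lt (by omega), add_zero, if_pos ⟨hy, by omega⟩]
        ring
      · intro y hy hy'
        rw [mem_range] at hy hy'
        simp only [hg]
        rw [Nat.mul_add_mod, Nat.mod_eq_of_lt hy, if_neg (by omega), zero_mul]
    rw [sum_congr rfl e3, sum_comm]
    refine sum_congr rfl fun s _ => ?_
    rw [← mul_sum, sum_digits hQ0]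
  rw [e2, Nat.mod_eq_of_lt (hB.lt8 (hB.dig _ _))]
  apply digit_eq_of_mod
  unfold Bm
  rw [sum_nat_mod, sum_nat_mod (range π.N) (π.Q ^ (e + 1))
    (fun s => π.cnC al be mm C i (j - 1) u s * mm (j - 1) s v)]
  congr 1
  refine sum_congr rfl fun s _ => ?_
  rw [Nat.mul_mod, Nat.mod_mod, ← Nat.mul_mod]

/-- Level 6, passing on. -/
theorem val6a {C i j u v e : ℕ} (hC : C < X) (hi : i ≤ π.n) (hj1 : 1 ≤ j) (hj : j ≤ π.n)
    (hu : u < π.N) (hv : v < π.N) (he : e < X) :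
    π.V X al be bs (m0 + 7) A (pk X [0, C, i, j, u, v, e, 0]) =
      Bm π.N (π.cnC al be mm C) mm i j u v / π.Q ^ e % π.Q := by
  have hN := hB.NX
  have hn := hB.nX
  have hX := hB.X0
  rw [V_succ (m := m0 + 6) (l := 6) hX (lvl hm (by unfold Prm.LP; omega)) hX hC (by omega)
    (by omega) (by omega) (by omega) he hX, outL_s (by omega) (by omega) (by omega) (by omega)]
  rw [pass_fold (a := Bm π.N (π.cnC al be mm C) mm i j u v / π.Q ^ e % π.Q) hB
    (hB.lt8 (hB.dig _ _)), Nat.mod_eq_of_lt (hB.lt8 (hB.dig _ _))]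
  · show π.V X al be bs (m0 + 6) A (pk X [0, C, i, j, u, v, e, 0]) = _
    exact val5a hB hm h0 hmm hC hi hj1 hj hu hv he
  · intro q s hq
    show (if q = 0 then _ else s) = s
    rw [if_neg (by omega)]

theorem val6b {C i j u v e : ℕ} (hC : C < X) (hi : i ≤ π.n) (hj : j ≤ π.n)
    (hu : u < π.N) (hv : v < π.N) (he : e < X) :
    π.V X al be bs (m0 + 7) A (pk X [1, C, i, j, u, v, e, 0]) = π.cnC al be mm C i j u v := by
  have hN := hB.NX
  have hn := hB.nX
  have hX := hB.X0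
  have hX1 := hB.X1
  have hQX := hB.QX
  rw [V_succ (m := m0 + 6) (l := 6) hX (lvl hm (by unfold Prm.LP; omega)) hX1 hC (by omega)
    (by omega) (by omega) (by omega) he hX, outL_s (by omega) (by omega) (by omega) (by omega)]
  have hb : π.cnC al be mm C i j u v < X ^ 8 :=
    hB.lt8 (lt_of_le_of_lt (cnC_le _ _ _ _ _ _ _ _) hQX)
  rw [pass_fold (a := π.cnC al be mm C i j u v) hB hb, Nat.mod_eq_of_lt hb]
  · show π.V X al be bs (m0 + 6) A (pk X [1, C, i, j, u, v, e, 0]) = _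
    exact val5b hB hm h0 hmm hC hi hj hu hv he
  · intro q s hq
    show (if q = 0 then _ else s) = s
    rw [if_neg (by omega)]

/-- Level 6: a test. -/
theorem val6c {C i j u v : ℕ} (hC : C < X) (hi : i ≤ π.n) (hj1 : 1 ≤ j) (hj : j ≤ π.n)
    (hu : u < π.N) (hv : v < π.N) :
    π.V X al be bs (m0 + 7) A (pk X [2, C, i, j, u, v, 0, 0]) =
      if Bm π.N (π.cnC al be mm C) mm i j u v / π.Q ^ π.J ≤ π.cnC al be mm C i j u v + π.tau ∧
        π.cnC al be mm C i j u v ≤ Bm π.N (π.cnC al be mm C) mm i j u v / π.Q ^ π.J + π.tau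
      then 0 else 1 := by
  have hN := hB.NX
  have hn := hB.nX
  have hX := hB.X0
  have hX1 := hB.X1
  have hQX := hB.QX
  have hQ0 := hB.Q0
  have hJX := hB.JX
  have hX2 : 2 < X := lt_of_le_of_lt hB.Q2 hQX
  rw [V_succ (m := m0 + 6) (l := 6) hX (lvl hm (by unfold Prm.LP; omega)) hX2 hC (by omega)
    (by omega) (by omega) (by omega) hX hX, outL_s (by omega) (by omega) (by omega) (by omega)]
  set b := Bm π.N (π.cnC al be mm C) mm i j u v with hb
  have hbl : b < π.Q ^ (π.J + 3) := Bm_lt hB hmm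
  have hq : ∀ e < X, π.V X al be bs (m0 + 6) A (pk X [0, C, i, j, u, v, e, 0]) =
      b / π.Q ^ e % π.Q := fun e he => val5a hB hm h0 hmm hC hi hj1 hj hu hv he
  have hc : π.V X al be bs (m0 + 6) A (pk X [1, C, i, j, u, v, 0, 0]) =
    π.cnC al be mm C i j u v := val5b hB hm h0 hmm hC hi hj hu hv hX
  set d := b / π.Q ^ π.J with hd
  have hd3 : d < π.Q ^ 3 := by
    rw [hd, Nat.div_lt_iff_lt_mul (Nat.pow_pos hQ0), ← pow_add, add_comm 3]
    exact hbl
  have hs1 : d % π.Q + π.Q * (d / π.Q % π.Q) = d % π.Q ^ 2 := by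
    rw [pow_two, Nat.mod_mul]
  have hs2 : d % π.Q ^ 2 + π.Q ^ 2 * (d / π.Q ^ 2 % π.Q) = d := by
    rw [← Nat.mod_mul, ← pow_succ, Nat.mod_eq_of_lt hd3]
  have hd0 : b / π.Q ^ (π.J + 0) % π.Q = d % π.Q := by rw [add_zero]
  have hd1 : b / π.Q ^ (π.J + 1) % π.Q = d / π.Q % π.Q := by
    rw [hd, Nat.div_div_eq_div_mul, ← pow_succ]
  have hd2 : b / π.Q ^ (π.J + 2) % π.Q = d / π.Q ^ 2 % π.Q := by
    rw [hd, Nat.div_div_eq_div_mul, ← pow_add]
  have hQ3X : π.Q ^ 3 ≤ X ^ 3 := Nat.pow_le_pow_left hQX.le 3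
  rw [four_fold (a := d % π.Q) (b := d % π.Q ^ 2) (c := d)
    (d := if d ≤ π.cnC al be mm C i j u v + π.tau ∧ π.cnC al be mm C i j u v ≤ d + π.tau
      then 0 else 1)]
  · apply Nat.mod_eq_of_lt
    have : 1 < X ^ 8 := hB.lt8 hX1
    split_ifs <;> omega
  · exact hB.four
  · show π.V X al be bs (m0 + 6) A (pk X [0, C, i, j, u, v, π.J + 0, 0]) = _
    rw [hq _ (by omega), hd0]
  · exact hB.lt8 ((Nat.mod_lt _ hQ0).trans hQX)
  · show d % π.Q + π.Q * π.V X al be bs (m0 + 6) A (pk X [0, C, i, j, u, v, π.J + 1, 0]) = _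
    rw [hq _ (by omega), hd1, hs1]
  · exact hB.X8 (k := 3) (lt_of_le_of_lt (Nat.mod_le _ _) (lt_of_lt_of_le hd3 hQ3X)) (by norm_num)
  · show d % π.Q ^ 2 + π.Q ^ 2 *
      π.V X al be bs (m0 + 6) A (pk X [0, C, i, j, u, v, π.J + 2, 0]) = _
    rw [hq _ (by omega), hd2, hs2]
  · exact hB.X8 (k := 3) (lt_of_lt_of_le hd3 hQ3X) (by norm_num)
  · show (if d ≤ π.V X al be bs (m0 + 6) A (pk X [1, C, i, j, u, v, 0, 0]) + π.tau ∧
      π.V X al be bs (m0 + 6) A (pk X [1, C, i, j, u, v, 0, 0]) ≤ d + π.tau then 0 else 1) = _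
    rw [hc]
  · have : 1 < X ^ 8 := hB.lt8 hX1
    split_ifs <;> omega
  · intro q hq
    show (if q = 0 then _ else if q = 1 then _ else if q = 2 then _ else if q = 3 then _ else _) = _
    rw [if_neg (by omega), if_neg (by omega), if_neg (by omega), if_neg (by omega)]

end stage

end Prm

end Vale.Agent.P313.MW
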