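import Vale.Agent.P313.H463.MW.ClC

/-!
Closed forms of the levels 7, 8 and 9 of a stage: the test, the search, the transfer matrix.
-/

namespace Vale.Agent.P313.MW

open Finset

/-- Digits of `Q ^ J * c`. -/
theorem dgP_eq {Q J c e : ℕ} (hQ : 2 ≤ Q) (hc : c ≤ Q) :
    dgP Q J c e = Q ^ J * c / Q ^ e % Q := by
  have hQ0 : 0 < Q := by omega
  unfold dgP
  rcases lt_trichotomy e J with h | h | h
  · rw [if_neg (by omega), if_neg (by omega)]
    obtain ⟨d, rfl⟩ : ∃ d, J = e + (d + 1) := ⟨J - e - 1, by omega⟩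
    rw [pow_add, mul_assoc, Nat.mul_div_cancel_left _ (Nat.pow_pos hQ0), pow_succ,
      show Q ^ d * Q * c = Q * (Q ^ d * c) by ring, Nat.mul_mod_right]
  · subst h
    rw [if_pos rfl, Nat.mul_div_cancel_left _ (Nat.pow_pos hQ0)]
  · rw [if_neg (by omega)]
    obtain ⟨d, rfl⟩ : ∃ d, e = J + (d + 1) := ⟨e - J - 1, by omega⟩
    rw [pow_add, ← Nat.div_div_eq_div_mul, Nat.mul_div_cancel_left _ (Nat.pow_pos hQ0)]
    rcases Nat.eq_zero_or_pos d with h1 | h1
    · subst h1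
      rw [if_pos rfl, zero_add, pow_one, Nat.mod_eq_of_lt]
      rw [Nat.div_lt_iff_lt_mul hQ0]
      nlinarith
    · rw [if_neg (by omega), Nat.div_eq_of_lt, Nat.zero_mod]
      refine lt_of_le_of_lt hc ?_
      calc Q = Q ^ 1 := (pow_one _).symm
        _ < Q ^ (d + 1) := Nat.pow_lt_pow_right (by omega) (by omega)

/-- Digits of a power. -/
theorem dg_pow {Q J e : ℕ} (hQ : 2 ≤ Q) : Q ^ J / Q ^ e % Q = if e = J then 1 else 0 := by
  have h1 := dgP_eq (J := J) (c := 1) (e := e) hQ (by omega)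
  rw [mul_one] at h1
  rw [← h1]
  unfold dgP
  split_ifs
  · exact Nat.mod_eq_of_lt (by omega)
  · exact Nat.div_eq_of_lt (by omega)
  · rfl

namespace Prm

variable {π : Prm} {X : ℕ} {al be : ℕ → ℕ} {bs : ℕ → ℕ → ℕ}

section stage

variable (hB : π.Big X) {m0 : ℕ} (hm : m0 % π.LP = 0) {A : ℕ} {mm : ℕ → ℕ → ℕ → ℕ}
  (h0 : ∀ p < π.n, ∀ u < π.N, ∀ v < π.N, ∀ e < X,
    π.V X al be bs m0 (A * π.n + p) (pk X [0, 0, 0, 0, u, v, e, 0]) = mm p u v / π.Q ^ e % π.Q)
  (hmm : ∀ p u v, mm p u v < π.Q ^ (π.J + 1))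

include hB hm h0 hmm

/-- Level 7, passing on. -/
theorem val7a {C i j u v e : ℕ} (hC : C < X) (hi : i ≤ π.n) (hj1 : 1 ≤ j) (hj : j ≤ π.n)
    (hu : u < π.N) (hv : v < π.N) (he : e < X) :
    π.V X al be bs (m0 + 8) A (pk X [0, C, i, j, u, v, e, 0]) =
      Bm π.N (π.cnC al be mm C) mm i j u v / π.Q ^ e % π.Q := by
  have hN := hB.NX
  have hn := hB.nX
  have hX := hB.X0
  rw [V_succ (m := m0 + 7) (l := 7) hX (lvl hm (by unfold Prm.LP; omega)) hX hC (by omega)
    (by omega) (by omega) (by omega) he hX, outL_s (by omega) (by omega) (by omega) (by omega)]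
  rw [pass_fold (a := Bm π.N (π.cnC al be mm C) mm i j u v / π.Q ^ e % π.Q) hB
    (hB.lt8 (hB.dig _ _)), Nat.mod_eq_of_lt (hB.lt8 (hB.dig _ _))]
  · show π.V X al be bs (m0 + 7) A (pk X [0, C, i, j, u, v, e, 0]) = _
    exact val6a hB hm h0 hmm hC hi hj1 hj hu hv he
  · intro q s hq
    show (if q = 0 then _ else s) = s
    rw [if_neg (by omega)]

theorem val7b {C i j u v e : ℕ} (hC : C < X) (hi : i ≤ π.n) (hj : j ≤ π.n)
    (hu : u < π.N) (hv : v < π.N) (he : e < X) :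
    π.V X al be bs (m0 + 8) A (pk X [1, C, i, j, u, v, e, 0]) = π.cnC al be mm C i j u v := by
  have hN := hB.NX
  have hn := hB.nX
  have hX := hB.X0
  have hX1 := hB.X1
  have hQX := hB.QX
  rw [V_succ (m := m0 + 7) (l := 7) hX (lvl hm (by unfold Prm.LP; omega)) hX1 hC (by omega)
    (by omega) (by omega) (by omega) he hX, outL_s (by omega) (by omega) (by omega) (by omega)]
  have hb : π.cnC al be mm C i j u v < X ^ 8 :=
    hB.lt8 (lt_of_le_of_lt (cnC_le _ _ _ _ _ _ _ _) hQX)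
  rw [pass_fold (a := π.cnC al be mm C i j u v) hB hb, Nat.mod_eq_of_lt hb]
  · show π.V X al be bs (m0 + 7) A (pk X [1, C, i, j, u, v, e, 0]) = _
    exact val6b hB hm h0 hmm hC hi hj hu hv he
  · intro q s hq
    show (if q = 0 then _ else s) = s
    rw [if_neg (by omega)]

/-- Level 7: all tests. -/
theorem val7c {C : ℕ} (hC : C < X) :
    π.V X al be bs (m0 + 8) A (pk X [2, C, 0, 0, 0, 0, 0, 0]) < X ∧
    (π.V X al be bs (m0 + 8) A (pk X [2, C, 0, 0, 0, 0, 0, 0]) = 0 ↔ π.pass al be mm C) := by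
  have hN := hB.NX
  have hn := hB.nX
  have hX := hB.X0
  have hX1 := hB.X1
  have hQX := hB.QX
  have hX2 : 2 < X := lt_of_le_of_lt hB.Q2 hQX
  rw [V_succ (m := m0 + 7) (l := 7) hX (lvl hm (by unfold Prm.LP; omega)) hX2 hC hX
    hX hX hX hX hX, outL_s (by omega) (by omega) (by omega) (by omega)]
  -- the tests
  let bad : ℕ → Prop := fun q => q % X < π.N ∧ q / X % X < π.N ∧ q / X ^ 3 < q / X ^ 2 % X ∧
    q / X ^ 2 % X ≤ π.n ∧ ¬ (Bm π.N (π.cnC al be mm C) mm (q / X ^ 3) (q / X ^ 2 % X) (q / X % X)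
      (q % X) / π.Q ^ π.J ≤ π.cnC al be mm C (q / X ^ 3) (q / X ^ 2 % X) (q / X % X) (q % X) +
        π.tau ∧
      π.cnC al be mm C (q / X ^ 3) (q / X ^ 2 % X) (q / X % X) (q % X) ≤
        Bm π.N (π.cnC al be mm C) mm (q / X ^ 3) (q / X ^ 2 % X) (q / X % X) (q % X) /
          π.Q ^ π.J + π.tau)
  have hfold : ∀ q ≤ X ^ 4,
      (nfold (fun q s => π.updL X 7 2 0 0 0 0 0 0 q s
        (π.V X al be bs (m0 + 7) (if 7 = 0 then A * π.n + 0 % π.n else A)
          (π.qryL X al be 7 2 C 0 0 0 0 0 0 q s)) % X ^ 8) 0 q ≤ 1) ∧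
      (nfold (fun q s => π.updL X 7 2 0 0 0 0 0 0 q s
        (π.V X al be bs (m0 + 7) (if 7 = 0 then A * π.n + 0 % π.n else A)
          (π.qryL X al be 7 2 C 0 0 0 0 0 0 q s)) % X ^ 8) 0 q = 0 ↔
        ∀ q' < q, ¬ bad q') := by
    intro q
    induction q with
    | zero => intro _; simp [nfold]
    | succ q ih =>
      intro hq
      obtain ⟨ih1, ih2⟩ := ih (by omega)
      set z := nfold (fun q s => π.updL X 7 2 0 0 0 0 0 0 q s
        (π.V X al be bs (m0 + 7) (if 7 = 0 then A * π.n + 0 % π.n else A)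
          (π.qryL X al be 7 2 C 0 0 0 0 0 0 q s)) % X ^ 8) 0 q with hz
      have e1 : nfold (fun q s => π.updL X 7 2 0 0 0 0 0 0 q s
        (π.V X al be bs (m0 + 7) (if 7 = 0 then A * π.n + 0 % π.n else A)
          (π.qryL X al be 7 2 C 0 0 0 0 0 0 q s)) % X ^ 8) 0 (q + 1) =
        (if q % X < π.N ∧ q / X % X < π.N ∧ q / X ^ 3 < q / X ^ 2 % X ∧ q / X ^ 2 % X ≤ π.n ∧
          π.V X al be bs (m0 + 7) A
            (pk X [2, C, q / X ^ 3, q / X ^ 2 % X, q / X % X, q % X, 0, 0]) ≠ 0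
        then 1 else z) % X ^ 8 := rfl
      rw [e1]
      have h18 : 1 < X ^ 8 := hB.lt8 hX1
      have hiff : (q % X < π.N ∧ q / X % X < π.N ∧ q / X ^ 3 < q / X ^ 2 % X ∧
          q / X ^ 2 % X ≤ π.n ∧ π.V X al be bs (m0 + 7) A
            (pk X [2, C, q / X ^ 3, q / X ^ 2 % X, q / X % X, q % X, 0, 0]) ≠ 0) ↔ bad q := by
        refine and_congr_right fun h1 => and_congr_right fun h2 => and_congr_right fun h3 =>
          and_congr_right fun h4 => ?_
        rw [val6c hB hm h0 hmm hC (h3.le.trans h4) (Nat.one_le_of_lt h3) h4 h2 h1]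
        split_ifs with h5
        · exact iff_of_false (fun h => h rfl) (fun h => h h5)
        · exact iff_of_true one_ne_zero h5
      by_cases h : bad q
      · rw [if_pos (hiff.2 h), Nat.mod_eq_of_lt h18]
        refine ⟨le_rfl, iff_of_false one_ne_zero (fun h' => h' q (by omega) h)⟩
      · rw [if_neg (fun h' => h (hiff.1 h')), Nat.mod_eq_of_lt (lt_of_le_of_lt ih1 h18)]
        refine ⟨ih1, ih2.trans ⟨fun h1 q' hq' => ?_, fun h1 q' hq' => h1 q' (by omega)⟩⟩
        rcases Nat.lt_or_ge q' q with h2 | h2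
        · exact h1 q' h2
        · rwa [show q' = q by omega]
  obtain ⟨h1, h2⟩ := hfold (X ^ 4) le_rfl
  have h18 : 1 < X ^ 8 := hB.lt8 hX1
  rw [Nat.mod_eq_of_lt (lt_of_le_of_lt h1 h18)]
  refine ⟨lt_of_le_of_lt h1 hX1, h2.trans ?_⟩
  constructor
  · intro h i j hij hj u hu v hv
    have hq : v + X * (u + X * (j + X * i)) < X ^ 4 := by
      have e1 : v + X * (u + X * (j + X * i)) < X ^ 4 := by
        calc v + X * (u + X * (j + X * i)) < X ^ (3 + 1) := by
              refine RecD.dig_lt (by omega) ?_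
              refine RecD.dig_lt (n := 2) (by omega) ?_
              refine RecD.dig_lt (n := 1) (by omega) ?_
              rw [pow_one]; omega
          _ = _ := rfl
      exact e1
    have hb := h _ hq
    have hvX : v < X := by omega
    have huX : u < X := by omega
    have hjX : j < X := by omega
    have q1 : (v + X * (u + X * (j + X * i))) % X = v := RecD.dig_mod hvX
    have q2 : (v + X * (u + X * (j + X * i))) / X = u + X * (j + X * i) := RecD.dig_div hvX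
    have q3 : (v + X * (u + X * (j + X * i))) / X ^ 2 = j + X * i := by
      rw [pow_two, ← Nat.div_div_eq_div_mul, q2, RecD.dig_div huX]
    have q4 : (v + X * (u + X * (j + X * i))) / X ^ 3 = i := by
      rw [pow_succ, ← Nat.div_div_eq_div_mul, q3, RecD.dig_div hjX]
    have q5 : (u + X * (j + X * i)) % X = u := RecD.dig_mod huX
    have q6 : (j + X * i) % X = j := RecD.dig_mod hjX
    simp only [bad] at hb
    rw [q1, q2, q3, q4, q5, q6] at hb
    by_contra h3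
    exact hb ⟨hv, hu, hij, hj, h3⟩
  · rintro h q hq ⟨h1, h2, h3, h4, h5⟩
    exact h5 (h _ _ h3 h4 _ h2 _ h1)

/-- Level 8, passing on. -/
theorem val8a {C i j u v e : ℕ} (hC : C < X) (hi : i ≤ π.n) (hj1 : 1 ≤ j) (hj : j ≤ π.n)
    (hu : u < π.N) (hv : v < π.N) (he : e < X) :
    π.V X al be bs (m0 + 9) A (pk X [0, C, i, j, u, v, e, 0]) =
      Bm π.N (π.cnC al be mm C) mm i j u v / π.Q ^ e % π.Q := by
  have hN := hB.NX
  have hn := hB.nX
  have hX := hB.X0
  rw [V_succ (m := m0 + 8) (l := 8) hX (lvl hm (by unfold Prm.LP; omega)) hX hC (by omega)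
    (by omega) (by omega) (by omega) he hX, outL_s (by omega) (by omega) (by omega) (by omega)]
  rw [pass_fold (a := Bm π.N (π.cnC al be mm C) mm i j u v / π.Q ^ e % π.Q) hB
    (hB.lt8 (hB.dig _ _)), Nat.mod_eq_of_lt (hB.lt8 (hB.dig _ _))]
  · show π.V X al be bs (m0 + 8) A (pk X [0, C, i, j, u, v, e, 0]) = _
    exact val7a hB hm h0 hmm hC hi hj1 hj hu hv he
  · intro q s hq
    show (if q = 0 then _ else s) = s
    rw [if_neg (by omega)]

theorem val8b {C i j u v e : ℕ} (hC : C < X) (hi : i ≤ π.n) (hj : j ≤ π.n)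
    (hu : u < π.N) (hv : v < π.N) (he : e < X) :
    π.V X al be bs (m0 + 9) A (pk X [1, C, i, j, u, v, e, 0]) = π.cnC al be mm C i j u v := by
  have hN := hB.NX
  have hn := hB.nX
  have hX := hB.X0
  have hX1 := hB.X1
  have hQX := hB.QX
  rw [V_succ (m := m0 + 8) (l := 8) hX (lvl hm (by unfold Prm.LP; omega)) hX1 hC (by omega)
    (by omega) (by omega) (by omega) he hX, outL_s (by omega) (by omega) (by omega) (by omega)]
  have hb : π.cnC al be mm C i j u v < X ^ 8 :=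
    hB.lt8 (lt_of_le_of_lt (cnC_le _ _ _ _ _ _ _ _) hQX)
  rw [pass_fold (a := π.cnC al be mm C i j u v) hB hb, Nat.mod_eq_of_lt hb]
  · show π.V X al be bs (m0 + 8) A (pk X [1, C, i, j, u, v, e, 0]) = _
    exact val7b hB hm h0 hmm hC hi hj hu hv he
  · intro q s hq
    show (if q = 0 then _ else s) = s
    rw [if_neg (by omega)]

/-- Level 8: the search. -/
theorem val8c : π.V X al be bs (m0 + 9) A (pk X [3, 0, 0, 0, 0, 0, 0, 0]) < X ^ 8 ∧
    (π.found al be mm → π.V X al be bs (m0 + 9) A (pk X [3, 0, 0, 0, 0, 0, 0, 0]) =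
      π.chs al be mm + 1) ∧
    (¬ π.found al be mm → π.V X al be bs (m0 + 9) A (pk X [3, 0, 0, 0, 0, 0, 0, 0]) = 0) := by
  classical
  have hX := hB.X0
  have hX1 := hB.X1
  have hQX := hB.QX
  have hCX := hB.CX
  have hJX := hB.JX
  have hX3 : 3 < X := by omega
  rw [V_succ (m := m0 + 8) (l := 8) hX (lvl hm (by unfold Prm.LP; omega)) hX3 hX hX
    hX hX hX hX hX, outL_s (by omega) (by omega) (by omega) (by omega)]
  refine ⟨Nat.mod_lt _ (Nat.pow_pos hX), ?_⟩
  set f : ℕ → ℕ → ℕ := fun q s => π.updL X 8 3 0 0 0 0 0 0 q s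
        (π.V X al be bs (m0 + 8) (if 8 = 0 then A * π.n + 0 % π.n else A)
          (π.qryL X al be 8 3 0 0 0 0 0 0 0 q s)) % X ^ 8 with hf
  have hfe : ∀ q s, f q s = (if q < 2 ^ (2 * π.s) ∧ s = 0 ∧
      π.V X al be bs (m0 + 8) A (pk X [2, q, 0, 0, 0, 0, 0, 0]) = 0 then q + 1 else s) % X ^ 8 :=
    fun q s => rfl
  have h24 : 2 ^ (2 * π.s) ≤ X ^ 4 := hCX.trans (Nat.le_self_pow (by norm_num) _)
  have hX8 : X < X ^ 8 := by
    calc X = X ^ 1 := (pow_one _).symm
      _ < X ^ 8 := Nat.pow_lt_pow_right hX1 (by norm_num)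
  -- before the first success
  have hnone : ∀ q ≤ 2 ^ (2 * π.s), (∀ C < q, ¬ π.pass al be mm C) → nfold f 0 q = 0 := by
    intro q
    induction q with
    | zero => intro _ _; rfl
    | succ q ih =>
      intro hq h
      show f q (nfold f 0 q) = 0
      rw [ih (by omega) (fun C hC => h C (by omega)), hfe, if_neg, Nat.zero_mod]
      rintro ⟨_, _, h3⟩
      exact h q (by omega) ((val7c hB hm h0 hmm (C := q) (by omega)).2.1 h3)
  constructor
  · rintro ⟨C, hC, hp⟩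
    have hne : {C | C < 2 ^ (2 * π.s) ∧ π.pass al be mm C}.Nonempty := ⟨C, hC, hp⟩
    have hmem := Nat.sInf_mem hne
    have hlow : ∀ C < π.chs al be mm, ¬ π.pass al be mm C := by
      intro C' hC' hp'
      have : C' ∉ {C | C < 2 ^ (2 * π.s) ∧ π.pass al be mm C} := Nat.notMem_of_lt_sInf hC'
      exact this ⟨lt_trans hC' hmem.1, hp'⟩
    change π.chs al be mm < 2 ^ (2 * π.s) ∧ π.pass al be mm (π.chs al be mm) at hmem
    have h1 : nfold f 0 (π.chs al be mm + 1) = π.chs al be mm + 1 := by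
      show f (π.chs al be mm) (nfold f 0 (π.chs al be mm)) = _
      rw [hnone _ hmem.1.le hlow, hfe, if_pos ⟨hmem.1, rfl,
        (val7c hB hm h0 hmm (C := π.chs al be mm) (by omega)).2.2 hmem.2⟩]
      exact Nat.mod_eq_of_lt (by omega)
    have h2 : nfold f 0 (X ^ 4) = π.chs al be mm + 1 := by
      refine nfold_stable h1 (by omega) (fun q _ _ => ?_)
      rw [hfe, if_neg (by rintro ⟨_, h, _⟩; omega)]
      exact Nat.mod_eq_of_lt (by omega)
    rw [h2]
    exact Nat.mod_eq_of_lt (by omega)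
  · intro h
    have h1 : nfold f 0 (2 ^ (2 * π.s)) = 0 :=
      hnone _ le_rfl (fun C hC hp => h ⟨C, hC, hp⟩)
    have h2 : nfold f 0 (X ^ 4) = 0 := by
      refine nfold_stable h1 h24 (fun q hq _ => ?_)
      rw [hfe, if_neg (by rintro ⟨h, _, _⟩; omega), Nat.zero_mod]
    rw [h2, Nat.zero_mod]

theorem val8f : π.V X al be bs (m0 + 9) A (pk X [3, 0, 0, 0, 0, 0, 0, 0]) ≠ 0 ↔
    π.found al be mm := by
  obtain ⟨_, h1, h2⟩ := val8c hB hm h0 hmm
  by_cases h : π.found al be mm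
  · rw [h1 h]
    exact iff_of_true (by omega) h
  · rw [h2 h]
    exact iff_of_false (fun h => h rfl) h

omit hm h0 hmm in
theorem chs_lt : π.chs al be mm < X := by
  have hCX := hB.CX
  by_cases h : {C | C < 2 ^ (2 * π.s) ∧ π.pass al be mm C}.Nonempty
  · have := (Nat.sInf_mem h).1
    change π.chs al be mm < _ at this
    omega
  · rw [Set.not_nonempty_iff_eq_empty] at h
    unfold Prm.chs
    rw [h, Nat.sInf_empty]
    exact hB.X0

theorem val8g : π.V X al be bs (m0 + 9) A (pk X [3, 0, 0, 0, 0, 0, 0, 0]) - 1 =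
    π.chs al be mm := by
  obtain ⟨_, h1, h2⟩ := val8c hB hm h0 hmm
  by_cases h : π.found al be mm
  · rw [h1 h, Nat.add_sub_cancel]
  · rw [h2 h]
    have h3 : {C | C < 2 ^ (2 * π.s) ∧ π.pass al be mm C} = ∅ := by
      rw [← Set.not_nonempty_iff_eq_empty]
      rintro ⟨C, hC⟩
      exact h ⟨C, hC⟩
    unfold Prm.chs
    rw [h3, Nat.sInf_empty]

/-- Level 9: the digits of the transfer matrix. -/
theorem val9 {w w' e : ℕ} (hw : w < π.W4) (hw' : w' < π.W4) (he : e < X) :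
    π.V X al be bs (m0 + 10) A (pk X [0, 0, 0, 0, w, w', e, 0]) =
      Xe π.N π.n π.Q π.J (π.cnC al be mm (π.chs al be mm)) mm w w' / π.Q ^ e % π.Q := by
  have hN := hB.NX
  have hn := hB.nX
  have hX := hB.X0
  have hX1 := hB.X1
  have hQX := hB.QX
  have hQ2 := hB.Q2
  have hWX := hB.WX
  have hC := chs_lt (al := al) (be := be) (mm := mm) hB
  rw [V_succ (m := m0 + 9) (l := 9) hX (lvl hm (by unfold Prm.LP; omega)) hX hX hX hX
    (by omega) (by omega) he hX]
  set C := π.chs al be mm with hCd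
  set f : ℕ → ℕ → ℕ := fun q s => π.updL X 9 0 0 0 w w' e 0 q s
        (π.V X al be bs (m0 + 9) (if 9 = 0 then A * π.n + 0 % π.n else A)
          (π.qryL X al be 9 0 0 0 0 w w' e 0 q s)) % X ^ 8 with hf
  set kd := if w % 2 = 0 ∧ w' % 2 = 0 ∧ w / 2 % 2 = w' / 2 % 2 then 0 else 1 with hkd
  set i := w / 2 / 2 % (π.n + 1) with hi
  set j := w' / 2 / 2 % (π.n + 1) with hj
  set u := w / 2 / 2 / (π.n + 1) with hu
  set v := w' / 2 / 2 / (π.n + 1) with hv
  have hi' : i ≤ π.n := by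
    have := Nat.mod_lt (w / 2 / 2) (show 0 < π.n + 1 by omega)
    omega
  have hj' : j ≤ π.n := by
    have := Nat.mod_lt (w' / 2 / 2) (show 0 < π.n + 1 by omega)
    omega
  have hdiv : ∀ w, w < π.W4 → w / 2 / 2 / (π.n + 1) < π.N := by
    intro w hw
    rw [Nat.div_lt_iff_lt_mul (by omega), Nat.div_lt_iff_lt_mul (by omega),
      Nat.div_lt_iff_lt_mul (by omega)]
    unfold Prm.W4 at hw
    calc w < 4 * ((π.n + 1) * π.N) := hw
      _ = _ := by ring
  have hu' : u < π.N := hdiv w hw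
  have hv' : v < π.N := hdiv w' hw'
  set r := π.V X al be bs (m0 + 9) A (pk X [kd, C, i, j, u, v, e, 0]) with hr
  have hf2 : nfold f 0 (X ^ 4) = r % X ^ 8 := by
    refine nfold_stable (m := 2) ?_ ((by norm_num : 2 ≤ 4).trans hB.four) (fun q hq _ => ?_)
    · show π.updL X 9 0 0 0 w w' e 0 1 (π.updL X 9 0 0 0 w w' e 0 0 0
        (π.V X al be bs (m0 + 9) A (pk X [3, 0, 0, 0, 0, 0, 0, 0])) % X ^ 8)
        (π.V X al be bs (m0 + 9) A (pk X [kd, (π.V X al be bs (m0 + 9) A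
          (pk X [3, 0, 0, 0, 0, 0, 0, 0]) - 1) % X ^ 8, i, j, u, v, e, 0])) % X ^ 8 = _
      rw [val8g hB hm h0 hmm, ← hCd, Nat.mod_eq_of_lt (hB.lt8 hC)]
      rfl
    · show (if q = 0 then _ else if q = 1 then _ else r % X ^ 8) % X ^ 8 = _
      rw [if_neg (by omega), if_neg (by omega), Nat.mod_mod]
  rw [hf2]
  have hout : ∀ s, π.outL X 9 0 w w' e s = if w % 2 = 0 then
      if w' % 2 = 0 then
        if i < j then (if w / 2 % 2 = w' / 2 % 2 then s else dgP π.Q π.J s e) else 0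
      else if i ≤ j ∧ w / 2 % 2 = w' / 2 % 2 then dgP π.Q π.J s e else 0
    else if w' % 2 = 1 ∧ w / 2 % 2 = w' / 2 % 2 ∧ i = j ∧ u = v ∧ e = π.J + 1 then 1 else 0 :=
    fun s => rfl
  rw [hout]
  unfold Xe Xd
  rw [← hi, ← hj, ← hu, ← hv]
  have h18 : 1 < X ^ 8 := hB.lt8 hX1
  have hd8 : ∀ a e, a / π.Q ^ e % π.Q % X ^ 8 = a / π.Q ^ e % π.Q := fun a e =>
    Nat.mod_eq_of_lt (hB.lt8 (hB.dig a e))
  have hc8 : π.cnC al be mm C i j u v < X ^ 8 :=
    hB.lt8 (lt_of_le_of_lt (cnC_le _ _ _ _ _ _ _ _) hQX)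
  have hr1 : kd = 1 → r = π.cnC al be mm C i j u v := by
    intro h
    rw [hr, h]
    exact val8b hB hm h0 hmm hC hi' hj' hu' hv' he
  by_cases h1 : w % 2 = 0
  · rw [if_pos h1, if_pos h1]
    by_cases h2 : w' % 2 = 0
    · rw [if_pos h2, if_pos h2]
      by_cases h3 : i < j
      · rw [if_pos h3, if_pos h3]
        by_cases h4 : w / 2 % 2 = w' / 2 % 2
        · rw [if_pos h4, if_pos h4]
          have : kd = 0 := by rw [hkd, if_pos ⟨h1, h2, h4⟩]
          rw [hr, this, val8a hB hm h0 hmm hC hi' (by omega) hj' hu' hv' he, hd8, hd8]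
        · rw [if_neg h4, if_neg h4]
          have : kd = 1 := by rw [hkd, if_neg (fun h => h4 h.2.2)]
          rw [hr1 this, Nat.mod_eq_of_lt hc8, dgP_eq hQ2 (cnC_le _ _ _ _ _ _ _ _), hd8]
      · rw [if_neg h3, if_neg h3, Nat.zero_div, Nat.zero_mod, Nat.zero_mod]
    · rw [if_neg h2, if_neg h2]
      by_cases h3 : i ≤ j ∧ w / 2 % 2 = w' / 2 % 2
      · rw [if_pos h3, if_pos h3]
        have : kd = 1 := by rw [hkd, if_neg (fun h => h2 h.2.1)]
        rw [hr1 this, Nat.mod_eq_of_lt hc8, dgP_eq hQ2 (cnC_le _ _ _ _ _ _ _ _), hd8]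
      · rw [if_neg h3, if_neg h3, Nat.zero_div, Nat.zero_mod, Nat.zero_mod]
  · rw [if_neg h1, if_neg h1]
    by_cases h2 : w' % 2 = 1 ∧ w / 2 % 2 = w' / 2 % 2 ∧ i = j ∧ u = v
    · rw [if_pos h2, dg_pow hQ2]
      by_cases h3 : e = π.J + 1
      · rw [if_pos ⟨h2.1, h2.2.1, h2.2.2.1, h2.2.2.2, h3⟩, if_pos h3, Nat.mod_eq_of_lt h18]
      · rw [if_neg (fun h => h3 h.2.2.2.2), if_neg h3, Nat.zero_mod]
    · rw [if_neg h2, if_neg (fun h => h2 ⟨h.1, h.2.1, h.2.2.1, h.2.2.2.1⟩), Nat.zero_div,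
        Nat.zero_mod, Nat.zero_mod]

end stage

end Prm

end Vale.Agent.P313.MW
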