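import Mathlib

/-!
Medium width: products of given matrices. The objects of one stage.

A stage multiplies `n` matrices of size `N`, given with denominators `Q ^ J`. A pool of hash
functions modulo `Q` and a subset `C` of the pool give labels for walks (Nisan's generator); the
averages of the walks give rough approximations of all partial products; powers of the error
matrix improve them.
-/

namespace Vale.Agent.P313.MW

open Finset

/-- Bit `c` of `C`. -/
def bt (C c : ℕ) : ℕ := C / 2 ^ c % 2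

/-- The number of ones of `C` below `c`. -/
def pc (C c : ℕ) : ℕ := ∑ i ∈ range c, bt C i

/-- The hash function number `c` is applied if it is in `C` and the corresponding bit of the time
`t` is one. -/
def hst (Q : ℕ) (al be : ℕ → ℕ) (C t c x : ℕ) : ℕ :=
  if bt C c = 1 ∧ bt t (pc C c) = 1 then (al c * x + be c) % Q else x

/-- The label for time `t`, obtained from the seed `x` by the members of `C` below `c`, the largest
member first. -/
def lab (Q : ℕ) (al be : ℕ → ℕ) (C t : ℕ) : ℕ → ℕ → ℕ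
  | 0, x => x
  | c + 1, x => lab Q al be C t c (hst Q al be C t c x)

/-- Walks: `T p u x` is the successor of the state `u` at position `p` with label `x`; the walk
starts at position `i` in state `u`. -/
def wlk (T : ℕ → ℕ → ℕ → ℕ) (lb : ℕ → ℕ) (i u : ℕ) : ℕ → ℕ
  | 0 => u
  | t + 1 => T (i + t) (wlk T lb i u t) (lb t)

/-- The number of seeds for which the walk from position `i` and state `u` is in state `v` after
`t` steps. -/
def cw (Q r : ℕ) (al be : ℕ → ℕ) (T : ℕ → ℕ → ℕ → ℕ) (C i t u v : ℕ) : ℕ :=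
  #{x ∈ range Q | wlk T (fun t => lab Q al be C t r x) i u t = v}

/-- Products of `t` matrices of size `N`, the first one is the matrix number `i`. -/
def prq (N : ℕ) (m : ℕ → ℕ → ℕ → ℚ) (i : ℕ) : ℕ → ℕ → ℕ → ℚ
  | 0, u, v => if u = v then 1 else 0
  | t + 1, u, v => ∑ s ∈ range N, prq N m i t u s * m (i + t) s v

/-- The matrix of one step of an automaton: `N` states, labels below `Q`. -/
def one (Q : ℕ) (T : ℕ → ℕ → ℕ → ℕ) (p u v : ℕ) : ℚ := (#{x ∈ range Q | T p u x = v} : ℚ) / Q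

/-! ### The improvement -/

/-- The product of the approximation of the product of the matrices `i, ..., j - 2` and the matrix
`j - 1`. -/
def Bm (N : ℕ) (cn : ℕ → ℕ → ℕ → ℕ → ℕ) (mm : ℕ → ℕ → ℕ → ℕ) (i j u v : ℕ) : ℕ :=
  ∑ s ∈ range N, cn i (j - 1) u s * mm (j - 1) s v

/-- Code of a phase, a sign, a position and a state. -/
def cod (n ph sg i u : ℕ) : ℕ := ph + 2 * (sg + 2 * (i + (n + 1) * u))

/-- The transfer matrix, with denominator `Q ^ (J + 1)`. -/
def Xd (N Q J : ℕ) (cn : ℕ → ℕ → ℕ → ℕ → ℕ) (mm : ℕ → ℕ → ℕ → ℕ)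
    (ph sg i u ph' sg' j v : ℕ) : ℕ :=
  if ph = 0 then
    if ph' = 0 then
      if i < j then (if sg = sg' then Bm N cn mm i j u v else Q ^ J * cn i j u v) else 0
    else if i ≤ j ∧ sg = sg' then Q ^ J * cn i j u v else 0
  else if ph' = 1 ∧ sg = sg' ∧ i = j ∧ u = v then Q ^ (J + 1) else 0

/-- The transfer matrix on codes. -/
def Xe (N n Q J : ℕ) (cn : ℕ → ℕ → ℕ → ℕ → ℕ) (mm : ℕ → ℕ → ℕ → ℕ) (w w' : ℕ) : ℕ :=
  Xd N Q J cn mm (w % 2) (w / 2 % 2) (w / 2 / 2 % (n + 1)) (w / 2 / 2 / (n + 1))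
    (w' % 2) (w' / 2 % 2) (w' / 2 / 2 % (n + 1)) (w' / 2 / 2 / (n + 1))

/-- Repeated squaring of a matrix of size `W`. -/
def sqr (W : ℕ) (X : ℕ → ℕ → ℕ) : ℕ → ℕ → ℕ → ℕ
  | 0 => X
  | d + 1 => fun a b => ∑ w ∈ range W, sqr W X d a w * sqr W X d w b

/-- The result of a stage, with denominator `Q ^ J`. -/
def nx (N n Q J D : ℕ) (cn : ℕ → ℕ → ℕ → ℕ → ℕ) (mm : ℕ → ℕ → ℕ → ℕ) (u v : ℕ) : ℕ :=
  (sqr (4 * ((n + 1) * N)) (Xe N n Q J cn mm) D (cod n 0 0 0 u) (cod n 1 0 n v) -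
    sqr (4 * ((n + 1) * N)) (Xe N n Q J cn mm) D (cod n 0 0 0 u) (cod n 1 1 n v)) /
    Q ^ ((J + 1) * 2 ^ D - J) % Q ^ (J + 1)

/-- The test of the approximations. -/
def okC (N n Q J tau : ℕ) (cn : ℕ → ℕ → ℕ → ℕ → ℕ) (mm : ℕ → ℕ → ℕ → ℕ) : Prop :=
  ∀ i j, i < j → j ≤ n → ∀ u < N, ∀ v < N,
    Bm N cn mm i j u v / Q ^ J ≤ cn i j u v + tau ∧ cn i j u v ≤ Bm N cn mm i j u v / Q ^ J + tau

end Vale.Agent.P313.MW
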