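import Vale.Agent.P313.H463.MW.Rec

/-!
Folds: stability, small folds, sums, digits of sums.
-/

namespace Vale.Agent.P313.MW

open Finset

section basic

variable {f g : ℕ → ℕ → ℕ} {s v m n : ℕ}

theorem nfold_stable (h : nfold f s m = v) (hmn : m ≤ n)
    (hs : ∀ q, m ≤ q → q < n → f q v = v) : nfold f s n = v := by
  induction n with
  | zero =>
    have : m = 0 := by omega
    subst this; exact h
  | succ n ih =>
    rcases Nat.lt_or_ge m (n + 1) with h1 | h1
    · have h2 := ih (by omega) (fun q h3 h4 => hs q h3 (by omega))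
      show f n (nfold f s n) = v
      rw [h2]
      exact hs n (by omega) (by omega)
    · have : m = n + 1 := by omega
      subst this; exact h

theorem nfold_congr (h : ∀ q < n, f q (nfold g s q) = g q (nfold g s q)) :
    nfold f s n = nfold g s n := by
  induction n with
  | zero => rfl
  | succ n ih =>
    show f n (nfold f s n) = g n (nfold g s n)
    rw [ih (fun q hq => h q (by omega))]
    exact h n (by omega)

/-- Clipping does not matter. -/
theorem nfold_clip {P : ℕ} (h : ∀ q < n, f q (nfold f s q) < P) :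
    nfold (fun q s => f q s % P) s n = nfold f s n :=
  nfold_congr (fun q hq => Nat.mod_eq_of_lt (h q hq))

theorem nfold_sum (c : ℕ → ℕ) : nfold (fun q s => s + c q) s n = s + ∑ q ∈ range n, c q := by
  induction n with
  | zero => simp [nfold]
  | succ n ih =>
    show nfold (fun q s => s + c q) s n + c n = _
    rw [ih, sum_range_succ]
    ring

theorem nfold_one {f : ℕ → ℕ → ℕ} {s : ℕ} : nfold f s 1 = f 0 s := rfl
theorem nfold_two {f : ℕ → ℕ → ℕ} {s : ℕ} : nfold f s 2 = f 1 (f 0 s) := rfl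
theorem nfold_four {f : ℕ → ℕ → ℕ} {s : ℕ} : nfold f s 4 = f 3 (f 2 (f 1 (f 0 s))) := rfl

theorem one_fold {U : ℕ → ℕ → ℕ} {P n a : ℕ} (hn : 1 ≤ n) (h0 : U 0 0 = a) (ha : a < P)
    (hs : ∀ q, 1 ≤ q → U q a = a) : nfold (fun q s => U q s % P) 0 n = a := by
  refine nfold_stable (m := 1) ?_ hn (fun q hq _ => ?_)
  · show U 0 0 % P = a
    rw [h0, Nat.mod_eq_of_lt ha]
  · show U q a % P = a
    rw [hs q hq, Nat.mod_eq_of_lt ha]

theorem two_fold {U : ℕ → ℕ → ℕ} {P n a b : ℕ} (hn : 2 ≤ n) (h0 : U 0 0 = a) (ha : a < P)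
    (h1 : U 1 a = b) (hb : b < P) (hs : ∀ q, 2 ≤ q → U q b = b) :
    nfold (fun q s => U q s % P) 0 n = b := by
  refine nfold_stable (m := 2) ?_ hn (fun q hq _ => ?_)
  · show U 1 (U 0 0 % P) % P = b
    rw [h0, Nat.mod_eq_of_lt ha, h1, Nat.mod_eq_of_lt hb]
  · show U q b % P = b
    rw [hs q hq, Nat.mod_eq_of_lt hb]

theorem four_fold {U : ℕ → ℕ → ℕ} {P n a b c d : ℕ} (hn : 4 ≤ n) (h0 : U 0 0 = a) (ha : a < P)
    (h1 : U 1 a = b) (hb : b < P) (h2 : U 2 b = c) (hc : c < P) (h3 : U 3 c = d) (hd : d < P)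
    (hs : ∀ q, 4 ≤ q → U q d = d) :
    nfold (fun q s => U q s % P) 0 n = d := by
  refine nfold_stable (m := 4) ?_ hn (fun q hq _ => ?_)
  · show U 3 (U 2 (U 1 (U 0 0 % P) % P) % P) % P = d
    rw [h0, Nat.mod_eq_of_lt ha, h1, Nat.mod_eq_of_lt hb, h2, Nat.mod_eq_of_lt hc, h3,
      Nat.mod_eq_of_lt hd]
  · show U q d % P = d
    rw [hs q hq, Nat.mod_eq_of_lt hd]

end basic

/-! ### Digits of sums -/

/-- The end of block `m`. -/
def fin (Q e m z : ℕ) : ℕ := if m < e then z / Q else if m = e then z % Q else z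

theorem bst_last {Y Q e m z : ℕ} (hY : 0 < Y) :
    bst Y Q e (Y * m + (Y - 1)) z = fin Q e m z := by
  unfold bst fin
  have h1 : (Y * m + (Y - 1)) % Y = Y - 1 := by
    rw [Nat.mul_add_mod, Nat.mod_eq_of_lt (by omega)]
  have h2 : (Y * m + (Y - 1)) / Y = m := by
    rw [Nat.mul_add_div hY, Nat.div_eq_of_lt (by omega), add_zero]
  rw [if_pos h1, h2]

theorem bst_mid {Y Q e m y z : ℕ} (hy : y < Y - 1) : bst Y Q e (Y * m + y) z = z := by
  unfold bst
  have h1 : (Y * m + y) % Y = y := by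
    rw [Nat.mul_add_mod, Nat.mod_eq_of_lt (by omega)]
  rw [if_neg (by omega)]

/-- The carries. -/
def accs (Q e : ℕ) (G : ℕ → ℕ) : ℕ → ℕ
  | 0 => 0
  | m + 1 => fin Q e m (accs Q e G m + G m)

theorem conv_block {Y Q e : ℕ} (hY : 0 < Y) (g : ℕ → ℕ) (m z : ℕ)
    (hz : nfold (fun q z => bst Y Q e q (z + g q)) 0 (Y * m) = z) :
    nfold (fun q z => bst Y Q e q (z + g q)) 0 (Y * (m + 1)) =
      fin Q e m (z + ∑ y ∈ range Y, g (Y * m + y)) := by
  have h1 : ∀ y, y ≤ Y - 1 → nfold (fun q z => bst Y Q e q (z + g q)) 0 (Y * m + y) =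
      z + ∑ y ∈ range y, g (Y * m + y) := by
    intro y
    induction y with
    | zero => intro _; simpa using hz
    | succ y ih =>
      intro hy
      have h2 := ih (by omega)
      show bst Y Q e (Y * m + y) (nfold (fun q z => bst Y Q e q (z + g q)) 0 (Y * m + y) +
        g (Y * m + y)) = _
      rw [h2, bst_mid (by omega), sum_range_succ]
      ring
  have h2 := h1 (Y - 1) le_rfl
  have h3 : Y * (m + 1) = Y * m + (Y - 1) + 1 := by rw [mul_add, mul_one]; omega
  rw [h3]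
  show bst Y Q e (Y * m + (Y - 1)) (nfold (fun q z => bst Y Q e q (z + g q)) 0
    (Y * m + (Y - 1)) + g (Y * m + (Y - 1))) = _
  rw [h2, bst_last hY]
  congr 1
  have h4 : Y = (Y - 1) + 1 := by omega
  conv_rhs => rw [h4, sum_range_succ]
  rw [← h4]
  ring

theorem conv_fold {Y Q e : ℕ} (hY : 0 < Y) (g : ℕ → ℕ) (m : ℕ) :
    nfold (fun q z => bst Y Q e q (z + g q)) 0 (Y * m) =
      accs Q e (fun m => ∑ y ∈ range Y, g (Y * m + y)) m := by
  induction m with
  | zero => simp [nfold, accs]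
  | succ m ih => exact conv_block hY g m _ ih

theorem accs_le {Q e : ℕ} (hQ : 0 < Q) (G : ℕ → ℕ) : ∀ m ≤ e, accs Q e G m =
    (∑ i ∈ range m, G i * Q ^ i) / Q ^ m := by
  intro m
  induction m with
  | zero => intro _; simp [accs]
  | succ m ih =>
    intro hm
    show fin Q e m (accs Q e G m + G m) = _
    unfold fin
    rw [if_pos (by omega), ih (by omega), sum_range_succ, pow_succ, ← Nat.div_div_eq_div_mul,
      mul_comm (G m), Nat.add_mul_div_left _ _ (Nat.pow_pos hQ)]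

theorem accs_final {Q e : ℕ} (hQ : 0 < Q) (G : ℕ → ℕ) (hG : ∀ m, e < m → G m = 0) :
    ∀ m, e < m → accs Q e G m = (∑ i ∈ range (e + 1), G i * Q ^ i) / Q ^ e % Q := by
  intro m
  induction m with
  | zero => intro h; omega
  | succ m ih =>
    intro hm
    show fin Q e m (accs Q e G m + G m) = _
    unfold fin
    rcases Nat.lt_or_ge e m with h1 | h1
    · rw [if_neg (by omega), if_neg (by omega), ih h1, hG m h1, add_zero]
    · have : m = e := by omega
      subst this
      rw [if_neg (lt_irrefl _), if_pos rfl, accs_le hQ G m le_rfl, sum_range_succ,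
        mul_comm (G m), Nat.add_mul_div_left _ _ (Nat.pow_pos hQ)]

/-- The state of the loop is bounded. -/
theorem conv_bd {Y Q e G0 : ℕ} (hY : 0 < Y) (hQ : 2 ≤ Q) (hQG : Q ≤ Y * G0) (g : ℕ → ℕ)
    (hg : ∀ q, g q ≤ G0) (hg0 : ∀ q, e < q / Y → g q = 0) (q : ℕ) :
    nfold (fun q z => bst Y Q e q (z + g q)) 0 q ≤
      Y * G0 + if q / Y ≤ e then (q % Y) * G0 else 0 := by
  induction q with
  | zero => exact Nat.zero_le _
  | succ q ih =>
    show bst Y Q e q (nfold (fun q z => bst Y Q e q (z + g q)) 0 q + g q) ≤ _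
    set z := nfold (fun q z => bst Y Q e q (z + g q)) 0 q with hz
    have hgq := hg q
    have hqd := Nat.div_add_mod q Y
    have hqm := Nat.mod_lt q hY
    unfold bst
    by_cases h1 : q % Y = Y - 1
    · have h2 : q + 1 = Y * (q / Y + 1) := by rw [mul_add, mul_one]; omega
      have h3 : (q + 1) % Y = 0 := by rw [h2]; exact Nat.mul_mod_right _ _
      have h4 : (q + 1) / Y = q / Y + 1 := by rw [h2]; exact Nat.mul_div_cancel_left _ hY
      rw [if_pos h1, h3, h4, zero_mul]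
      have h5 : (if q / Y + 1 ≤ e then 0 else 0) = 0 := by split_ifs <;> rfl
      rw [h5, add_zero]
      by_cases h6 : q / Y ≤ e
      · rw [if_pos h6, h1] at ih
        have h7 : z + g q ≤ 2 * (Y * G0) := by
          have h8 : (Y - 1) * G0 + G0 = Y * G0 := by
            obtain ⟨y, rfl⟩ : ∃ y, Y = y + 1 := ⟨Y - 1, by omega⟩
            rw [Nat.add_sub_cancel]; ring
          omega
        by_cases h8 : q / Y < e
        · rw [if_pos h8]
          exact Nat.div_le_of_le_mul (h7.trans (Nat.mul_le_mul_right _ hQ))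
        · rw [if_neg h8, if_pos (by omega)]
          exact (Nat.mod_lt _ (by omega)).le.trans hQG
      · rw [if_neg (by omega), if_neg (by omega), hg0 q (by omega), add_zero]
        rw [if_neg h6] at ih
        omega
    · have h5 : q % Y + 1 < Y := by omega
      have h3 : q + 1 = Y * (q / Y) + (q % Y + 1) := by omega
      have h2 : (q + 1) % Y = q % Y + 1 := by
        rw [h3, Nat.mul_add_mod, Nat.mod_eq_of_lt h5]
      have h4 : (q + 1) / Y = q / Y := by
        rw [h3, Nat.mul_add_div hY, Nat.div_eq_of_lt h5, add_zero]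
      rw [if_neg h1, h2, h4]
      by_cases h6 : q / Y ≤ e
      · rw [if_pos h6] at ih ⊢
        rw [add_mul, one_mul]
        omega
      · rw [if_neg h6] at ih ⊢
        rw [hg0 q (by omega)]
        omega

/-- The loop computes digit `e` of a sum, also with clipping. -/
theorem conv_digit {Y Q e G0 P m : ℕ} (hY : 0 < Y) (hQ : 2 ≤ Q) (hQG : Q ≤ Y * G0)
    (hP : 2 * (Y * G0) < P) (hm : e < m) (g : ℕ → ℕ)
    (hg : ∀ q, g q ≤ G0) (hg0 : ∀ q, e < q / Y → g q = 0) :
    nfold (fun q z => bst Y Q e q (z + g q) % P) 0 (Y * m) =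
      (∑ i ∈ range (e + 1), (∑ y ∈ range Y, g (Y * i + y)) * Q ^ i) / Q ^ e % Q := by
  rw [nfold_clip, conv_fold hY, accs_final (by omega) _ _ m hm]
  · intro i hi
    apply sum_eq_zero
    intro y hy
    apply hg0
    rw [mem_range] at hy
    rw [Nat.mul_add_div hY, Nat.div_eq_of_lt hy]
    exact hi
  · intro q _
    have h1 := conv_bd hY hQ hQG g hg hg0 (q + 1)
    refine lt_of_le_of_lt (a := nfold (fun q z => bst Y Q e q (z + g q)) 0 (q + 1)) h1 ?_
    refine lt_of_le_of_lt ?_ hP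
    have h2 := Nat.mod_lt (q + 1) hY
    have h3 : ((q + 1) % Y) * G0 ≤ Y * G0 := Nat.mul_le_mul_right _ h2.le
    split_ifs <;> omega

/-- Expansion of a number in base `Q`. -/
theorem sum_digits {Q : ℕ} (hQ : 0 < Q) (a m : ℕ) :
    ∑ i ∈ range m, a / Q ^ i % Q * Q ^ i = a % Q ^ m := by
  induction m with
  | zero => simp [Nat.mod_one]
  | succ m ih => rw [sum_range_succ, ih, Nat.mod_pow_succ]; ring

theorem digit_eq_of_mod {Q a b e : ℕ}
    (h : a % Q ^ (e + 1) = b % Q ^ (e + 1)) :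
    a / Q ^ e % Q = b / Q ^ e % Q := by
  have h1 : ∀ a, a % Q ^ (e + 1) / Q ^ e = a / Q ^ e % Q := by
    intro a
    rw [pow_succ, Nat.mod_mul_right_div_self]
  rw [← h1, ← h1, h]

/-- The product of two numbers modulo a power, from the digits. -/
theorem conv_mod {Q : ℕ} (hQ : 0 < Q) (a b m : ℕ) :
    (∑ i ∈ range m, (∑ j ∈ range (i + 1), (a / Q ^ j % Q) * (b / Q ^ (i - j) % Q)) * Q ^ i) %
      Q ^ m = a * b % Q ^ m := by
  rcases Nat.eq_zero_or_pos m with h0 | h0
  · subst h0; simp [Nat.mod_one]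
  have h1 : a * b % Q ^ m = ((∑ i ∈ range m, a / Q ^ i % Q * Q ^ i) *
      (∑ i ∈ range m, b / Q ^ i % Q * Q ^ i)) % Q ^ m := by
    rw [sum_digits hQ, sum_digits hQ, ← Nat.mul_mod]
  rw [h1, sum_mul_sum]
  have h2 : ∑ i ∈ range m, ∑ j ∈ range m, a / Q ^ i % Q * Q ^ i * (b / Q ^ j % Q * Q ^ j) =
      ∑ i ∈ range m, ∑ j ∈ range m, (a / Q ^ i % Q) * (b / Q ^ j % Q) * Q ^ (i + j) := by
    refine sum_congr rfl fun i _ => sum_congr rfl fun j _ => ?_
    rw [pow_add]; ring
  rw [h2]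
  have h3 : ∑ i ∈ range m, ∑ j ∈ range m, (a / Q ^ i % Q) * (b / Q ^ j % Q) * Q ^ (i + j) =
      ∑ i ∈ range m, ∑ j ∈ range (m - i), (a / Q ^ i % Q) * (b / Q ^ j % Q) * Q ^ (i + j) +
      ∑ i ∈ range m, ∑ j ∈ Ico (m - i) m, (a / Q ^ i % Q) * (b / Q ^ j % Q) * Q ^ (i + j) := by
    rw [← sum_add_distrib]
    refine sum_congr rfl fun i _ => ?_
    exact (sum_range_add_sum_Ico _ (Nat.sub_le m i)).symm
  have h4 : Q ^ m ∣ ∑ i ∈ range m, ∑ j ∈ Ico (m - i) m,
      (a / Q ^ i % Q) * (b / Q ^ j % Q) * Q ^ (i + j) := by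
    refine dvd_sum fun i _ => dvd_sum fun j hj => ?_
    rw [mem_Ico] at hj
    exact Dvd.dvd.mul_left (pow_dvd_pow _ (by omega)) _
  rw [h3, Nat.add_mod, Nat.dvd_iff_mod_eq_zero.1 h4, add_zero, Nat.mod_mod]
  congr 1
  have h5 : ∑ i ∈ range m, (∑ j ∈ range (i + 1), (a / Q ^ j % Q) * (b / Q ^ (i - j) % Q)) *
      Q ^ i = ∑ i ∈ range m, ∑ j ∈ range (i + 1),
        (a / Q ^ j % Q) * (b / Q ^ (i - j) % Q) * Q ^ (j + (i - j)) := by
    refine sum_congr rfl fun i _ => ?_
    rw [sum_mul]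
    refine sum_congr rfl fun j hj => ?_
    rw [mem_range] at hj
    rw [show j + (i - j) = i by omega]
  rw [h5]
  exact sum_range_diag_flip m (fun i j => (a / Q ^ i % Q) * (b / Q ^ j % Q) * Q ^ (i + j))

end Vale.Agent.P313.MW
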