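import Vale.Agent.P313.H463.MW.Defs

/-!
Medium width: the automata of a stage, the choice of the subset of the pool, the stages.
-/

namespace Vale.Agent.P313.MW

open Finset

/-- Cumulative sums. -/
def cum (f : ℕ → ℕ) (v : ℕ) : ℕ := ∑ w ∈ range v, f w

/-- The automaton with cells of lengths `f p u v`: the label `x` leads from `u` to the state `v`
whose cell contains `x`, and to the sink `N` if there is none. -/
def aut (N : ℕ) (f : ℕ → ℕ → ℕ → ℕ) (p u x : ℕ) : ℕ :=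
  if u < N then #{v ∈ range N | cum (f p u) (v + 1) ≤ x} else N

open Classical in
/-- The automaton of the safe cells of the true matrices. -/
noncomputable def autc (N Q : ℕ) (M : ℕ → ℕ → ℕ → ℚ) (p u x : ℕ) : ℕ :=
  if u < N ∧ ∃ v < N, cum (fun w => ⌊(Q : ℚ) * M p u w⌋₊) v + 2 * N ≤ x ∧
      x + 2 * N < cum (fun w => ⌊(Q : ℚ) * M p u w⌋₊) (v + 1) then
    #{v ∈ range N | cum (fun w => ⌊(Q : ℚ) * M p u w⌋₊) (v + 1) ≤ x}
  else N

/-- The parameters: `N` states, `n = 2 ^ s` matrices in a stage, labels modulo `Q`, denominators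
`Q ^ J`, `D` squarings, the threshold `tau` of the test. -/
structure Prm where
  N : ℕ
  s : ℕ
  Q : ℕ
  J : ℕ
  D : ℕ
  tau : ℕ

namespace Prm

variable (π : Prm)

/-- The number of matrices in a stage. -/
def n : ℕ := 2 ^ π.s

/-- The rough approximations given by the subset `C` of the pool. -/
def cnC (al be : ℕ → ℕ) (mm : ℕ → ℕ → ℕ → ℕ) (C i j u v : ℕ) : ℕ :=
  cw π.Q (2 * π.s) al be (aut π.N (fun p u v => mm p u v / π.Q ^ (π.J - 1))) C i (j - i) u v

/-- The subset `C` of the pool passes the test. -/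
def pass (al be : ℕ → ℕ) (mm : ℕ → ℕ → ℕ → ℕ) (C : ℕ) : Prop :=
  okC π.N π.n π.Q π.J π.tau (π.cnC al be mm C) mm

/-- Some subset of the pool passes the test. -/
def found (al be : ℕ → ℕ) (mm : ℕ → ℕ → ℕ → ℕ) : Prop :=
  ∃ C < 2 ^ (2 * π.s), π.pass al be mm C

/-- The first subset which passes the test. -/
noncomputable def chs (al be : ℕ → ℕ) (mm : ℕ → ℕ → ℕ → ℕ) : ℕ :=
  sInf {C | C < 2 ^ (2 * π.s) ∧ π.pass al be mm C}

/-- The result of a stage. -/
noncomputable def nxt (al be : ℕ → ℕ) (mm : ℕ → ℕ → ℕ → ℕ) (u v : ℕ) : ℕ :=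
  nx π.N π.n π.Q π.J π.D (π.cnC al be mm (π.chs al be mm)) mm u v

/-- The stages: `stg k A` is the approximation of the product of the `n ^ k` matrices from number
`A * n ^ k` on. -/
noncomputable def stg (al be : ℕ → ℕ) (B0 : ℕ → ℕ → ℕ → ℕ) : ℕ → ℕ → ℕ → ℕ → ℕ
  | 0, A, u, v => B0 A u v
  | k + 1, A, u, v => π.nxt al be (fun p u v => stg al be B0 k (A * π.n + p) u v) u v

/-- Numerical conditions: `h` is the unit. -/
structure Num (h : ℕ) : Prop where
  h10 : 10 ≤ h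
  s1 : 1 ≤ π.s
  sh : π.s ≤ h
  N1 : 1 ≤ π.N
  Nh : π.N ≤ 2 ^ h
  Qp : π.Q.Prime
  Q1 : 2 ^ (40 * h) ≤ π.Q
  Q2 : π.Q ≤ 2 ^ (40 * h + 1)
  J : π.J = π.s + 1
  D : 16 * (π.s + 1) ≤ 2 ^ π.D
  tau : π.tau = π.Q / 2 ^ (6 * h)

end Prm

/-- Row sums one, entries nonnegative, for the matrices with numbers below `m`. -/
def Stoch (N m : ℕ) (M : ℕ → ℕ → ℕ → ℚ) : Prop :=
  ∀ p < m, ∀ u < N, (∀ v < N, 0 ≤ M p u v) ∧ ∑ v ∈ range N, M p u v = 1

end Vale.Agent.P313.MW
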