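import Vale.Agent.P313.H463.MW.RecA
import Vale.Agent.P313.H463.MW.Stage

/-!
Medium width: the recursion for the stack machine. A stage has `12 + 2 D` levels. Arguments are
numbers with eight fields in base `X`: kind, subset, position, position, state, state, digit,
label.
-/

namespace Vale.Agent.P313.MW

open Finset

/-- Field `k` in base `X`. -/
def fd (X a k : ℕ) : ℕ := a / X ^ k % X

/-- Packing a list of numbers in base `X`. -/
def pk (X : ℕ) : List ℕ → ℕ
  | [] => 0
  | a :: l => a % X + X * pk X l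

theorem pk_lt {X : ℕ} (hX : 0 < X) (l : List ℕ) : pk X l < X ^ l.length := by
  induction l with
  | nil => simp [pk]
  | cons a l ih =>
    simp only [pk, List.length_cons]
    exact RecD.dig_lt (Nat.mod_lt _ hX) ih

theorem fd_zero {X a : ℕ} {l : List ℕ} : fd X (pk X (a :: l)) 0 = a % X := by
  simp only [fd, pk, pow_zero, Nat.div_one, Nat.add_mul_mod_self_left, Nat.mod_mod]

theorem fd_succ {X a k : ℕ} {l : List ℕ} (hX : 0 < X) :
    fd X (pk X (a :: l)) (k + 1) = fd X (pk X l) k := by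
  simp only [fd, pk]
  rw [pow_succ', ← Nat.div_div_eq_div_mul, RecD.dig_div (Nat.mod_lt _ hX)]

/-- The label of seed `x` at time `t`, by a loop. -/
def labS (Q : ℕ) (al be : ℕ → ℕ) (C t c k x : ℕ) : ℕ :=
  nfold (fun i y => hst Q al be C t (c - 1 - i) y) x k

/-- Digit `e` of `Q ^ J * c`, for `c ≤ Q`. -/
def dgP (Q J c e : ℕ) : ℕ := if e = J then c % Q else if e = J + 1 then c / Q else 0

/-- End of a block in a loop which computes digit `e` of a sum. -/
def bst (Y Q e q z : ℕ) : ℕ :=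
  if q % Y = Y - 1 then (if q / Y < e then z / Q else if q / Y = e then z % Q else z) else z

namespace Prm

variable (π : Prm) (X : ℕ)

/-- Size of the transfer matrix. -/
def W4 : ℕ := 4 * ((π.n + 1) * π.N)

/-- Exponent of the final denominator. -/
def E : ℕ := (π.J + 1) * 2 ^ π.D

/-- Bound for the number of digits. -/
def F : ℕ := (π.J + 4) * 2 ^ π.D

/-! ### The levels

`kd`, `C`, `i`, `j`, `u`, `v`, `e`, `w` are the fields of the argument. -/

/-- Query of the local level `l`. -/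
def qryL (al be : ℕ → ℕ) (l kd C i j u v e w q s : ℕ) : ℕ :=
  if l = 0 then pk X [0, 0, 0, 0, u, v, e, 0]
  else if l = 1 then
    (if kd = 0 then pk X [0, 0, i, 0, u, v, if q = 0 then π.J else π.J - 1, 0]
    else pk X [0, 0, i, 0, u, v, e, 0])
  else if l = 2 then
    (if kd = 0 then pk X [0, 0, i, 0, u, q, 0, 0] else pk X [1, 0, i, 0, u, v, e, 0])
  else if l = 3 then
    (if kd = 0 then
      pk X [0, 0, i + q % X, 0, if q % X = 0 then u else s % X ^ 4, 0, 0,
        labS π.Q al be C (q % X) (2 * π.s) (2 * π.s) (q / X)]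
    else pk X [1, 0, i, 0, u, v, e, 0])
  else if l = 4 then
    (if kd = 0 then
      (if q = 0 then pk X [0, C, i, j - 1, u, w, 0, 0] else pk X [1, 0, j - 1, 0, w, v, e, 0])
    else pk X [0, C, i, j, u, v, 0, 0])
  else if l = 5 then
    (if kd = 0 then pk X [0, C, i, j, u, v, q / X, q % X] else pk X [1, C, i, j, u, v, 0, 0])
  else if l = 6 then
    (if kd = 2 then
      (if q < 3 then pk X [0, C, i, j, u, v, π.J + q, 0] else pk X [1, C, i, j, u, v, 0, 0])
    else pk X [kd, C, i, j, u, v, e, 0])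
  else if l = 7 then
    (if kd = 2 then pk X [2, C, q / X ^ 3, q / X ^ 2 % X, q / X % X, q % X, 0, 0]
    else pk X [kd, C, i, j, u, v, e, 0])
  else if l = 8 then
    (if kd = 3 then pk X [2, q, 0, 0, 0, 0, 0, 0] else pk X [kd, C, i, j, u, v, e, 0])
  else if l = 9 then
    (if q = 0 then pk X [3, 0, 0, 0, 0, 0, 0, 0]
    else pk X [if u % 2 = 0 ∧ v % 2 = 0 ∧ u / 2 % 2 = v / 2 % 2 then 0 else 1, s,
      u / 2 / 2 % (π.n + 1), v / 2 / 2 % (π.n + 1), u / 2 / 2 / (π.n + 1),
      v / 2 / 2 / (π.n + 1), e, 0])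
  else if l = 10 + 2 * π.D then
    pk X [0, 0, 0, 0, cod π.n 0 0 0 u, cod π.n 1 (if q = 0 then 0 else 1) π.n v, e, 0]
  else if l = 11 + 2 * π.D then pk X [0, 0, 0, 0, u, v, q, 0]
  else if l % 2 = 0 then
    (if q = 0 then pk X [0, 0, 0, 0, u, w, i, 0] else pk X [0, 0, 0, 0, w, v, j, 0])
  else pk X [0, 0, q % X, q / X ^ 2 - q % X, u, v, 0, q / X % X]

/-- Update of the local level `l`, before clipping. -/
def updL (l kd i j u v e w q s r : ℕ) : ℕ :=
  if l = 0 then (if q = 0 then r else s)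
  else if l = 1 then
    (if kd = 0 then (if q = 0 then r * π.Q else if q = 1 then s + r else s)
    else if q = 0 then r else s)
  else if l = 2 then
    (if kd = 0 then
      (if q < π.N then s % X ^ 4 + r + X ^ 4 * (s / X ^ 4 + if s % X ^ 4 + r ≤ w then 1 else 0)
      else s)
    else if q = 0 then r else s)
  else if l = 3 then
    (if kd = 0 then
      (if q / X < π.Q then
        (if i + q % X < j then r else if q % X = 0 then u else s % X ^ 4) +
          X ^ 4 * (s / X ^ 4 + if q % X = X - 1 ∧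
            (if i + q % X < j then r else if q % X = 0 then u else s % X ^ 4) = v then 1 else 0)
      else s)
    else if q = 0 then r else s)
  else if l = 4 then
    (if kd = 0 then (if q = 0 then r else if q = 1 then s * r else s)
    else if q = 0 then r else s)
  else if l = 5 then
    (if kd = 0 then bst X π.Q e q (s + if q % X < π.N ∧ q / X ≤ e then r else 0)
    else if q = 0 then r else s)
  else if l = 6 then
    (if kd = 2 then
      (if q = 0 then r else if q = 1 then s + π.Q * r else if q = 2 then s + π.Q ^ 2 * r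
      else if q = 3 then (if s ≤ r + π.tau ∧ r ≤ s + π.tau then 0 else 1) else s)
    else if q = 0 then r else s)
  else if l = 7 then
    (if kd = 2 then
      (if q % X < π.N ∧ q / X % X < π.N ∧ q / X ^ 3 < q / X ^ 2 % X ∧ q / X ^ 2 % X ≤ π.n ∧ r ≠ 0
        then 1 else s)
    else if q = 0 then r else s)
  else if l = 8 then
    (if kd = 3 then (if q < 2 ^ (2 * π.s) ∧ s = 0 ∧ r = 0 then q + 1 else s)
    else if q = 0 then r else s)
  else if l = 9 then (if q = 0 then r - 1 else if q = 1 then r else s)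
  else if l = 10 + 2 * π.D then
    (if q = 0 then r else if q = 1 then s + (π.Q - 1 - r) + (if e = 0 then 1 else 0) else s)
  else if l = 11 + 2 * π.D then
    (if q < π.F then
      (s % X ^ 4 + r) / π.Q + X ^ 4 * (if q = π.E - π.J + e then (s % X ^ 4 + r) % π.Q
        else s / X ^ 4)
    else s)
  else if l % 2 = 0 then (if q = 0 then r else if q = 1 then s * r else s)
  else bst (X ^ 2) π.Q e q
    (s + if q % X ≤ q / X ^ 2 ∧ q / X % X < π.W4 ∧ q / X ^ 2 ≤ e then r else 0)

/-- Output of the local level `l`, before clipping. -/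
def outL (l kd u v e s : ℕ) : ℕ :=
  if l = 2 ∧ kd = 0 then (if u < π.N then s / X ^ 4 else π.N)
  else if l = 3 ∧ kd = 0 then s / X ^ 4
  else if l = 9 then
    (if u % 2 = 0 then
      if v % 2 = 0 then
        if u / 2 / 2 % (π.n + 1) < v / 2 / 2 % (π.n + 1) then
          (if u / 2 % 2 = v / 2 % 2 then s else dgP π.Q π.J s e) else 0
      else if u / 2 / 2 % (π.n + 1) ≤ v / 2 / 2 % (π.n + 1) ∧ u / 2 % 2 = v / 2 % 2 then
        dgP π.Q π.J s e else 0
    else if v % 2 = 1 ∧ u / 2 % 2 = v / 2 % 2 ∧ u / 2 / 2 % (π.n + 1) = v / 2 / 2 % (π.n + 1) ∧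
      u / 2 / 2 / (π.n + 1) = v / 2 / 2 / (π.n + 1) ∧ e = π.J + 1 then 1 else 0)
  else if l = 11 + 2 * π.D then (if 1 ≤ s % X ^ 4 ∧ e ≤ π.J then s / X ^ 4 else 0)
  else s

/-- The number of levels of a stage. -/
def LP : ℕ := 12 + 2 * π.D

/-- The recursion. -/
def rcn (al be : ℕ → ℕ) (bs : ℕ → ℕ → ℕ) : RecA where
  base A a := bs A a % X ^ 8
  s0 _ _ := 0
  qry i a q s := π.qryL X al be (i % π.LP) (fd X a 0) (fd X a 1) (fd X a 2) (fd X a 3) (fd X a 4)
    (fd X a 5) (fd X a 6) (fd X a 7) q s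
  upd i a q s r := π.updL X (i % π.LP) (fd X a 0) (fd X a 2) (fd X a 3) (fd X a 4) (fd X a 5)
    (fd X a 6) (fd X a 7) q s r % X ^ 8
  out i a s := π.outL X (i % π.LP) (fd X a 0) (fd X a 4) (fd X a 5) (fd X a 6) s % X ^ 8
  ml i := if i % π.LP = 0 then π.n else 1
  ad i a := if i % π.LP = 0 then fd X a 2 % π.n else 0

/-- The values. -/
def V (al be : ℕ → ℕ) (bs : ℕ → ℕ → ℕ) : ℕ → ℕ → ℕ → ℕ := (π.rcn X al be bs).val (X ^ 4)

variable {π X}

theorem V_zero (al be : ℕ → ℕ) (bs : ℕ → ℕ → ℕ) (A a : ℕ) :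
    π.V X al be bs 0 A a = bs A a % X ^ 8 := rfl

/-- One level of the recursion, on an argument with known fields. -/
theorem V_succ {al be : ℕ → ℕ} {bs : ℕ → ℕ → ℕ} {m l kd C i j u v e w A : ℕ} (hX : 0 < X)
    (hl : m % π.LP = l) (hkd : kd < X) (hC : C < X) (hi : i < X) (hj : j < X) (hu : u < X)
    (hv : v < X) (he : e < X) (hw : w < X) :
    π.V X al be bs (m + 1) A (pk X [kd, C, i, j, u, v, e, w]) =
      π.outL X l kd u v e (nfold (fun q s => π.updL X l kd i j u v e w q s
        (π.V X al be bs m (if l = 0 then A * π.n + i % π.n else A)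
          (π.qryL X al be l kd C i j u v e w q s)) % X ^ 8) 0 (X ^ 4)) % X ^ 8 := by
  have f0 : fd X (pk X [kd, C, i, j, u, v, e, w]) 0 = kd := by
    rw [fd_zero, Nat.mod_eq_of_lt hkd]
  have f1 : fd X (pk X [kd, C, i, j, u, v, e, w]) 1 = C := by
    rw [fd_succ hX, fd_zero, Nat.mod_eq_of_lt hC]
  have f2 : fd X (pk X [kd, C, i, j, u, v, e, w]) 2 = i := by
    rw [fd_succ hX, fd_succ hX, fd_zero, Nat.mod_eq_of_lt hi]
  have f3 : fd X (pk X [kd, C, i, j, u, v, e, w]) 3 = j := by
    rw [fd_succ hX, fd_succ hX, fd_succ hX, fd_zero, Nat.mod_eq_of_lt hj]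
  have f4 : fd X (pk X [kd, C, i, j, u, v, e, w]) 4 = u := by
    rw [fd_succ hX, fd_succ hX, fd_succ hX, fd_succ hX, fd_zero, Nat.mod_eq_of_lt hu]
  have f5 : fd X (pk X [kd, C, i, j, u, v, e, w]) 5 = v := by
    rw [fd_succ hX, fd_succ hX, fd_succ hX, fd_succ hX, fd_succ hX, fd_zero, Nat.mod_eq_of_lt hv]
  have f6 : fd X (pk X [kd, C, i, j, u, v, e, w]) 6 = e := by
    rw [fd_succ hX, fd_succ hX, fd_succ hX, fd_succ hX, fd_succ hX, fd_succ hX, fd_zero,
      Nat.mod_eq_of_lt he]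
  have f7 : fd X (pk X [kd, C, i, j, u, v, e, w]) 7 = w := by
    rw [fd_succ hX, fd_succ hX, fd_succ hX, fd_succ hX, fd_succ hX, fd_succ hX, fd_succ hX,
      fd_zero, Nat.mod_eq_of_lt hw]
  have hadr : A * (if m % π.LP = 0 then π.n else 1) +
      (if m % π.LP = 0 then fd X (pk X [kd, C, i, j, u, v, e, w]) 2 % π.n else 0) =
      if l = 0 then A * π.n + i % π.n else A := by
    rw [hl, f2]
    split_ifs <;> simp
  have e : π.V X al be bs (m + 1) A (pk X [kd, C, i, j, u, v, e, w]) =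
    π.outL X (m % π.LP) (fd X (pk X [kd, C, i, j, u, v, e, w]) 0)
      (fd X (pk X [kd, C, i, j, u, v, e, w]) 4) (fd X (pk X [kd, C, i, j, u, v, e, w]) 5)
      (fd X (pk X [kd, C, i, j, u, v, e, w]) 6)
      (nfold (fun q s => π.updL X (m % π.LP) (fd X (pk X [kd, C, i, j, u, v, e, w]) 0)
        (fd X (pk X [kd, C, i, j, u, v, e, w]) 2) (fd X (pk X [kd, C, i, j, u, v, e, w]) 3)
        (fd X (pk X [kd, C, i, j, u, v, e, w]) 4) (fd X (pk X [kd, C, i, j, u, v, e, w]) 5)
        (fd X (pk X [kd, C, i, j, u, v, e, w]) 6) (fd X (pk X [kd, C, i, j, u, v, e, w]) 7) q s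
        (π.V X al be bs m (A * (if m % π.LP = 0 then π.n else 1) +
          (if m % π.LP = 0 then fd X (pk X [kd, C, i, j, u, v, e, w]) 2 % π.n else 0))
          (π.qryL X al be (m % π.LP) (fd X (pk X [kd, C, i, j, u, v, e, w]) 0)
            (fd X (pk X [kd, C, i, j, u, v, e, w]) 1) (fd X (pk X [kd, C, i, j, u, v, e, w]) 2)
            (fd X (pk X [kd, C, i, j, u, v, e, w]) 3) (fd X (pk X [kd, C, i, j, u, v, e, w]) 4)
            (fd X (pk X [kd, C, i, j, u, v, e, w]) 5) (fd X (pk X [kd, C, i, j, u, v, e, w]) 6)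
            (fd X (pk X [kd, C, i, j, u, v, e, w]) 7) q s)) % X ^ 8) 0 (X ^ 4)) % X ^ 8 := rfl
  rw [e, hadr, f0, f1, f2, f3, f4, f5, f6, f7, hl]

end Prm

end Vale.Agent.P313.MW
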