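import Vale.Agent.P313.BundleTS

/-!
Evaluation of a recursion of bounded depth with an explicit stack and a global address register;
everything is a single number. Only the bottom level sees the address; the queries of a level
append a digit to it.
-/

namespace Vale.Agent.P313

/-- The data of a recursion: level `i + 1` folds over `Qn` queries to level `i`, whose address is
the address times `ml i` plus `ad i a`. -/
structure RecA where
  base : ℕ → ℕ → ℕ
  s0 : ℕ → ℕ → ℕ
  qry : ℕ → ℕ → ℕ → ℕ → ℕ
  upd : ℕ → ℕ → ℕ → ℕ → ℕ → ℕ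
  out : ℕ → ℕ → ℕ → ℕ
  ml : ℕ → ℕ
  ad : ℕ → ℕ → ℕ

namespace RecA

open RecD (cf fr dig_mod dig_div dig_lt cf_lt fr_lt tt tt_le)

variable (R : RecA)

/-- The recursively defined function. -/
def val (Qn : ℕ) : ℕ → ℕ → ℕ → ℕ
  | 0, A, a => R.base A a
  | i + 1, A, a => R.out i a
      (nfold (fun q s => R.upd i a q s (val Qn i (A * R.ml i + R.ad i a) (R.qry i a q s)))
        (R.s0 i a) Qn)

/-- The state of the fold after `q` queries. -/
def st (Qn i A a q : ℕ) : ℕ :=
  nfold (fun q s => R.upd i a q s (R.val Qn i (A * R.ml i + R.ad i a) (R.qry i a q s)))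
    (R.s0 i a) q

/-- One step of the stack machine, on the decoded configuration. -/
def stpD (Ma P Qn top c A m i v S : ℕ) : ℕ :=
  if m = 0 then
    if i = 0 then A + Ma * cf P 1 0 (R.base A v) S
    else (A * R.ml (i - 1) + R.ad (i - 1) v) +
      Ma * cf P 0 (i - 1) (R.qry (i - 1) v 0 (R.s0 (i - 1) v)) (fr P v 0 (R.s0 (i - 1) v) S)
  else if i = top then c
  else
    if S / P % P + 1 < Qn then
      A + Ma * cf P 0 i (R.qry i (S % P) (S / P % P + 1)
          (R.upd i (S % P) (S / P % P) (S / P / P % P) v))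
        (fr P (S % P) (S / P % P + 1) (R.upd i (S % P) (S / P % P) (S / P / P % P) v)
          (S / P / P / P))
    else A / R.ml i + Ma * cf P 1 (i + 1)
      (R.out i (S % P) (R.upd i (S % P) (S / P % P) (S / P / P % P) v)) (S / P / P / P)

/-- One step of the stack machine. -/
def stp (Ma P Qn top c : ℕ) : ℕ :=
  R.stpD Ma P Qn top c (c % Ma) (c / Ma % P) (c / Ma / P % P) (c / Ma / P / P % P)
    (c / Ma / P / P / P)

/-- Clipped step. -/
def stM (Ma P Qn top M c : ℕ) : ℕ := R.stp Ma P Qn top c % (M + 1)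

/-- Assumptions for a correct evaluation. -/
structure Ok (R : RecA) (Ma P Qn top : ℕ) (bd : ℕ → ℕ) : Prop where
  htwo : 2 ≤ P
  htop : top < P
  hqn : Qn < P
  hqn1 : 1 ≤ Qn
  hbase : ∀ A a, R.base A a < P
  hs0 : ∀ i a, R.s0 i a < P
  hqry : ∀ i a q s, R.qry i a q s < P
  hupd : ∀ i a q s r, R.upd i a q s r < P
  hout : ∀ i a s, R.out i a s < P
  had : ∀ i a, R.ad i a < R.ml i
  hbd : ∀ i < top, bd (i + 1) * R.ml i ≤ bd i
  hMa : ∀ i ≤ top, bd i ≤ Ma

variable {R}

theorem val_lt {Ma P Qn top : ℕ} {bd : ℕ → ℕ} (H : Ok R Ma P Qn top bd) (i A a : ℕ) :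
    R.val Qn i A a < P := by
  cases i with
  | zero => exact H.hbase _ _
  | succ i => exact H.hout _ _ _

theorem st_lt {Ma P Qn top : ℕ} {bd : ℕ → ℕ} (H : Ok R Ma P Qn top bd) (i A a q : ℕ) :
    R.st Qn i A a q < P := by
  cases q with
  | zero => exact H.hs0 _ _
  | succ q => exact H.hupd _ _ _ _ _

theorem stp_dec {Ma P Qn top A m i v S : ℕ} (hA : A < Ma) (hm : m < P) (hi : i < P) (hv : v < P) :
    R.stp Ma P Qn top (A + Ma * cf P m i v S) =
      R.stpD Ma P Qn top (A + Ma * cf P m i v S) A m i v S := by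
  unfold stp
  have d0 : (A + Ma * cf P m i v S) % Ma = A := dig_mod hA
  have d1 : (A + Ma * cf P m i v S) / Ma = cf P m i v S := dig_div hA
  have d2 : cf P m i v S % P = m := dig_mod hm
  have d3 : cf P m i v S / P = i + P * (v + P * S) := dig_div hm
  have d4 : (i + P * (v + P * S)) % P = i := dig_mod hi
  have d5 : (i + P * (v + P * S)) / P = v + P * S := dig_div hi
  have d6 : (v + P * S) % P = v := dig_mod hv
  have d7 : (v + P * S) / P = S := dig_div hv
  rw [d0, d1, d2, d3, d4, d5, d6, d7]

theorem add_lt_of {Ma A c K : ℕ} (hA : A < Ma) (hc : c < K) : A + Ma * c < Ma * K := by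
  calc A + Ma * c < Ma + Ma * c := by omega
    _ = Ma * (c + 1) := by ring
    _ ≤ Ma * K := Nat.mul_le_mul_left _ hc

theorem run_level {Ma P Qn top M : ℕ} {bd : ℕ → ℕ} (H : Ok R Ma P Qn top bd)
    (hM : Ma * P ^ (3 * top + 3) ≤ M) : ∀ i ≤ top, ∀ A < bd i, ∀ a < P, ∀ S,
    S < P ^ (3 * (top - i)) →
    (R.stM Ma P Qn top M)^[tt Qn i] (A + Ma * cf P 0 i a S) =
      A + Ma * cf P 1 i (R.val Qn i A a) S := by
  have h2 := H.htwo
  have htop := H.htop
  have hmod : ∀ {A m i v S n : ℕ}, A < Ma → m < P → i < P → v < P → S < P ^ n → n ≤ 3 * top →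
      (A + Ma * cf P m i v S) % (M + 1) = A + Ma * cf P m i v S := by
    intro A m i v S n hA hm hi hv hS hn
    apply Nat.mod_eq_of_lt
    have h3 := add_lt_of hA (cf_lt hm hi hv hS)
    have h4 : P ^ (n + 3) ≤ P ^ (3 * top + 3) := Nat.pow_le_pow_right (by omega) (by omega)
    have h5 := Nat.mul_le_mul_left Ma h4
    omega
  intro i
  induction i with
  | zero =>
    intro _ A hA a ha S hS
    have hAM : A < Ma := lt_of_lt_of_le hA (H.hMa 0 (Nat.zero_le _))
    show R.stM Ma P Qn top M (A + Ma * cf P 0 0 a S) = _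
    unfold stM
    rw [stp_dec hAM (by omega) (by omega) ha]
    unfold stpD
    rw [if_pos rfl, if_pos rfl, hmod hAM (by omega) (by omega) (H.hbase _ _) hS (by omega)]
    rfl
  | succ i ih =>
    intro hi A hA a ha S hS
    have hAM : A < Ma := lt_of_lt_of_le hA (H.hMa _ hi)
    have hml : 0 < R.ml i := lt_of_le_of_lt (Nat.zero_le _) (H.had i a)
    have hA' : A * R.ml i + R.ad i a < bd i := by
      have h3 := H.had i a
      have h4 := H.hbd i (by omega)
      have h5 : (A + 1) * R.ml i ≤ bd (i + 1) * R.ml i := Nat.mul_le_mul_right _ hA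
      rw [add_mul] at h5
      omega
    have hAM' : A * R.ml i + R.ad i a < Ma := lt_of_lt_of_le hA' (H.hMa _ (by omega))
    have hdiv : (A * R.ml i + R.ad i a) / R.ml i = A := by
      rw [mul_comm, Nat.mul_add_div hml, Nat.div_eq_of_lt (H.had i a), add_zero]
    set A' := A * R.ml i + R.ad i a with hA'e
    have e3 : 3 * (top - (i + 1)) + 3 = 3 * (top - i) := by omega
    have hqn := H.hqn
    have hqn1 := H.hqn1
    have hfr : ∀ q ≤ Qn, fr P a q (R.st Qn i A a q) S < P ^ (3 * (top - i)) := by
      intro q hq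
      rw [← e3]
      exact fr_lt ha (by omega) (st_lt H _ _ _ _) hS
    -- first step
    have step0 : R.stM Ma P Qn top M (A + Ma * cf P 0 (i + 1) a S) =
        A' + Ma * cf P 0 i (R.qry i a 0 (R.st Qn i A a 0)) (fr P a 0 (R.st Qn i A a 0) S) := by
      unfold stM
      rw [stp_dec hAM (by omega) (by omega) ha]
      unfold stpD
      rw [if_pos rfl, if_neg (by omega), Nat.add_sub_cancel]
      exact hmod hAM' (by omega) (by omega) (H.hqry _ _ _ _) (hfr 0 (by omega)) (by omega)
    -- decoding a frame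
    have dec : ∀ q < Qn, fr P a q (R.st Qn i A a q) S % P = a ∧
        fr P a q (R.st Qn i A a q) S / P % P = q ∧
        fr P a q (R.st Qn i A a q) S / P / P % P = R.st Qn i A a q ∧
        fr P a q (R.st Qn i A a q) S / P / P / P = S := by
      intro q hq
      have hsq := st_lt H i A a q
      unfold fr
      rw [dig_mod ha, dig_div ha, dig_mod (by omega), dig_div (by omega), dig_mod hsq, dig_div hsq]
      exact ⟨rfl, rfl, rfl, rfl⟩
    -- a return step
    have stepq : ∀ q < Qn, q + 1 < Qn → R.stM Ma P Qn top M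
        (A' + Ma * cf P 1 i (R.val Qn i A' (R.qry i a q (R.st Qn i A a q)))
          (fr P a q (R.st Qn i A a q) S)) =
        A' + Ma * cf P 0 i (R.qry i a (q + 1) (R.st Qn i A a (q + 1)))
          (fr P a (q + 1) (R.st Qn i A a (q + 1)) S) := by
      intro q hq hq1
      have hvq := val_lt H i A' (R.qry i a q (R.st Qn i A a q))
      obtain ⟨e1, e2, e3', e4⟩ := dec q hq
      unfold stM
      rw [stp_dec hAM' (by omega) (by omega) hvq]
      unfold stpD
      rw [e1, e2, e3', e4, if_neg (by omega), if_neg (by omega), if_pos hq1]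
      exact hmod hAM' (by omega) (by omega) (H.hqry _ _ _ _) (hfr (q + 1) (by omega)) (by omega)
    -- the last return step
    have stepl : ∀ q < Qn, q + 1 = Qn → R.stM Ma P Qn top M
        (A' + Ma * cf P 1 i (R.val Qn i A' (R.qry i a q (R.st Qn i A a q)))
          (fr P a q (R.st Qn i A a q) S)) =
        A + Ma * cf P 1 (i + 1) (R.val Qn (i + 1) A a) S := by
      intro q hq hq1
      have hvq := val_lt H i A' (R.qry i a q (R.st Qn i A a q))
      obtain ⟨e1, e2, e3', e4⟩ := dec q hq
      have e5 : R.val Qn (i + 1) A a = R.out i a (R.st Qn i A a Qn) := rfl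
      unfold stM
      rw [stp_dec hAM' (by omega) (by omega) hvq]
      unfold stpD
      rw [e1, e2, e3', e4, if_neg (by omega), if_neg (by omega), if_neg (by omega), hdiv, e5,
        ← hq1]
      exact hmod hAM (by omega) (by omega) (H.hout _ _ _) hS (by omega)
    -- the loop
    have loop : ∀ q < Qn, (R.stM Ma P Qn top M)^[q * (tt Qn i + 1)]
        (A' + Ma * cf P 0 i (R.qry i a 0 (R.st Qn i A a 0)) (fr P a 0 (R.st Qn i A a 0) S)) =
        A' + Ma * cf P 0 i (R.qry i a q (R.st Qn i A a q)) (fr P a q (R.st Qn i A a q) S) := by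
      intro q
      induction q with
      | zero => intro _; simp
      | succ q ihq =>
        intro hq
        have h3 := ihq (by omega)
        have h4 := ih (by omega) A' hA' _ (H.hqry i a q (R.st Qn i A a q)) _ (hfr q (by omega))
        rw [show (q + 1) * (tt Qn i + 1) = 1 + (tt Qn i + q * (tt Qn i + 1)) by ring,
          Function.iterate_add_apply, Function.iterate_add_apply, h3, h4]
        exact stepq q (by omega) hq
    have h3 := loop (Qn - 1) (by omega)
    have h4 := ih (by omega) A' hA' _ (H.hqry i a (Qn - 1) (R.st Qn i A a (Qn - 1))) _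
      (hfr (Qn - 1) (by omega))
    have e5 : tt Qn (i + 1) = 1 + (tt Qn i + (Qn - 1) * (tt Qn i + 1)) + 1 := by
      simp only [tt]
      obtain ⟨n, rfl⟩ : ∃ n, Qn = n + 1 := ⟨Qn - 1, by omega⟩
      rw [Nat.add_sub_cancel]; ring
    rw [e5, Function.iterate_succ_apply, step0, Function.iterate_add_apply,
      Function.iterate_add_apply, h3, h4]
    exact stepl (Qn - 1) (by omega) (by omega)

/-- The value computed by the stack machine with budget `M`. -/
def run (Ma P Qn top M A a : ℕ) : ℕ :=
  (R.stM Ma P Qn top M)^[M] (A + Ma * cf P 0 top a 0) / Ma / P / P % P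

/-- The stack machine computes the recursively defined function. -/
theorem run_top {Ma P Qn top M : ℕ} {bd : ℕ → ℕ} (H : Ok R Ma P Qn top bd)
    (hM : Ma * P ^ (3 * top + 3) ≤ M) (hM2 : tt Qn top ≤ M) {A a : ℕ} (hA : A < bd top)
    (ha : a < P) : R.run Ma P Qn top M A a = R.val Qn top A a := by
  have h2 := H.htwo
  have htop := H.htop
  have hAM : A < Ma := lt_of_lt_of_le hA (H.hMa _ le_rfl)
  have h1 := run_level H hM top le_rfl A hA a ha 0
    (by simp only [tsub_self, mul_zero, pow_zero, Order.lt_one_iff])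
  have hv := val_lt H top A a
  have hfix : R.stM Ma P Qn top M (A + Ma * cf P 1 top (R.val Qn top A a) 0) =
      A + Ma * cf P 1 top (R.val Qn top A a) 0 := by
    unfold stM
    rw [stp_dec hAM (by omega) htop hv]
    unfold stpD
    rw [if_neg (by omega), if_pos rfl, Nat.mod_eq_of_lt]
    have h3 := add_lt_of hAM (cf_lt (m := 1) (n := 0) (S := 0) (by omega) htop hv (by simp))
    have h5 : P ^ (0 + 3) ≤ P ^ (3 * top + 3) := Nat.pow_le_pow_right (by omega) (by omega)
    have h6 := Nat.mul_le_mul_left Ma h5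
    omega
  unfold run
  have h3 : (R.stM Ma P Qn top M)^[M] (A + Ma * cf P 0 top a 0) =
      A + Ma * cf P 1 top (R.val Qn top A a) 0 := by
    rw [show M = (M - tt Qn top) + tt Qn top by omega, Function.iterate_add_apply]
    rw [show M - tt Qn top + tt Qn top = M by omega, h1]
    exact Function.iterate_fixed hfix _
  rw [h3, dig_div hAM]
  unfold cf
  rw [dig_div (by omega), dig_div htop, dig_mod hv]

end RecA

end Vale.Agent.P313
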